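import Vale.Agent.P366.Alg

/-! The Christoffel symbols of the ansatz. -/

namespace Vale.Agent.P366

open scoped Matrix
open Matrix

variable {n : ℕ} {J : Fin 3 → Matrix (Fin n) (Fin n) ℝ}

theorem chr_entry (h : IsQuat J) (x : Pt n) (A B C A' B' C' : ℝ) (i j l : Fin n) :
    Dm J x A B C A' B' C' (Pi.single i 1) j l + Dm J x A B C A' B' C' (Pi.single j 1) i l -
      Dm J x A B C A' B' C' (Pi.single l 1) i j = 2 * Tm J x A B C A' B' C' (Pi.single i 1) l j := by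
  have sk : ∀ a i j, J a i j = -J a j i := fun a i j => congrFun (congrFun (h.1 a) j) i
  have sy := blk_symm J x (A' - (A - C) / (x ⬝ᵥ x)) (B' - (B - C) / (x ⬝ᵥ x)) C'
  unfold Dm Tm
  generalize blk J x (A' - (A - C) / (x ⬝ᵥ x)) (B' - (B - C) / (x ⬝ᵥ x)) C' = H at sy ⊢
  generalize (A - C) / (x ⬝ᵥ x) = f0
  generalize (B - C) / (x ⬝ᵥ x) = f1
  have d : ∀ a b : Fin n, (Pi.single a (1 : ℝ) : Pt n) b = (Pi.single b (1 : ℝ) : Pt n) a :=
    fun a b => Pi.single_comm a 1 b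
  simp only [Fin.sum_univ_three, Matrix.add_apply, Matrix.sub_apply, Matrix.smul_apply,
    vecMulVec_apply, smul_eq_mul, dotProduct_single, mulVec_single_one, Matrix.col_apply, mul_one]
  rw [sy j l, sy i l, sy i j, d j i, d l i, d l j, sk 0 i j, sk 1 i j, sk 2 i j, sk 0 i l, sk 1 i l,
    sk 2 i l, sk 0 j l, sk 1 j l, sk 2 j l]
  ring

theorem chr_pf (hJ : JetStmt) : ChrStmt := by
  intro n J D x h hx hA hB hC k i j
  have hj := hJ n J D.A D.B D.C x hx (D.hA.differentiable (by simp) _)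
    (D.hB.differentiable (by simp) _) (D.hC.differentiable (by simp) _)
  have e : (hopf J D.A D.B D.C x)⁻¹ =
      blk J x (D.A (x ⬝ᵥ x))⁻¹ (D.B (x ⬝ᵥ x))⁻¹ (D.C (x ⬝ᵥ x))⁻¹ := blk_inv h hx hA hB hC
  rw [chr, e, Gam, Matrix.mul_apply, Finset.mul_sum]
  refine Finset.sum_congr rfl fun l _ => ?_
  rw [hj, hj, hj, chr_entry h]
  ring

end Vale.Agent.P366
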