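import Vale.Agent.P366.Stm

/-! The scalar curvature in divergence form. -/

namespace Vale.Agent.P366

open scoped Matrix ContDiff Topology
open Filter Set

namespace GenR

variable {n : ℕ} {x : Pt n}

theorem pd_sum {ι : Type} [Fintype ι] (k : Fin n) (f : ι → Pt n → ℝ)
    (h : ∀ i, DifferentiableAt ℝ (f i) x) :
    pd k (fun y => ∑ i, f i y) x = ∑ i, pd k (f i) x := by
  unfold pd
  rw [fderiv_fun_sum fun i _ => h i, sum_apply]

theorem pd_mul (k : Fin n) {f g : Pt n → ℝ} (hf : DifferentiableAt ℝ f x)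
    (hg : DifferentiableAt ℝ g x) :
    pd k (fun y => f y * g y) x = pd k f x * g x + f x * pd k g x := by
  unfold pd
  rw [fderiv_fun_mul hf hg]
  simp only [add_apply, smul_apply, smul_eq_mul]
  ring

theorem det_d {M : Ten n} (h : ∀ i j, DifferentiableAt ℝ (fun y => M y i j) x) :
    DifferentiableAt ℝ (fun y => (M y).det) x := by
  simp only [Matrix.det_apply']
  refine DifferentiableAt.fun_sum fun σ _ => DifferentiableAt.const_mul ?_ _
  exact (HasFDerivAt.finsetProd (g := fun i y => M y (σ i) i)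
    fun i _ => (h _ _).hasFDerivAt).differentiableAt

theorem inv_d {g : Ten n} (h : ∀ i j, DifferentiableAt ℝ (fun y => g y i j) x)
    (h0 : (g x).det ≠ 0) (i j : Fin n) : DifferentiableAt ℝ (fun y => (g y)⁻¹ i j) x := by
  simp only [Matrix.inv_def, Ring.inverse_eq_inv', Matrix.smul_apply, smul_eq_mul,
    Matrix.adjugate_apply]
  refine ((det_d h).inv h0).mul (det_d fun a b => ?_)
  simp only [Matrix.updateRow_apply]
  split_ifs
  · exact differentiableAt_const _
  · exact h _ _

theorem pd_d {f : Pt n → ℝ} (h : ContDiffAt ℝ 2 f x) (k : Fin n) :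
    DifferentiableAt ℝ (pd k f) x :=
  ((h.fderiv_right (m := 1) (by norm_num)).differentiableAt (by norm_num)).clm_apply
    (differentiableAt_const _)

theorem chr_d {g : Ten n} (h : ∀ i j, ContDiffAt ℝ 2 (fun y => g y i j) x)
    (h0 : (g x).det ≠ 0) (k i j : Fin n) : DifferentiableAt ℝ (chr g k i j) x := by
  unfold chr
  refine DifferentiableAt.const_mul (DifferentiableAt.fun_sum fun l _ => ?_) _
  exact (inv_d (fun a b => (h a b).differentiableAt (by norm_num)) h0 k l).mul
    (((pd_d (h _ _) _).add (pd_d (h _ _) _)).sub (pd_d (h _ _) _))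

theorem pd_inv {g : Ten n} (h : ∀ i j, DifferentiableAt ℝ (fun y => g y i j) x)
    (h0 : (g x).det ≠ 0) (k i j : Fin n) : pd k (fun y => (g y)⁻¹ i j) x =
      -∑ l, ∑ a, (g x)⁻¹ i l * pd k (fun y => g y l a) x * (g x)⁻¹ a j := by
  have e : (Matrix.of fun i j => pd k (fun y => (g y)⁻¹ i j) x) * g x +
      (g x)⁻¹ * (Matrix.of fun i j => pd k (fun y => g y i j) x) = 0 := by
    ext a b
    have e1 : (fun y => ∑ l, (g y)⁻¹ a l * g y l b) =ᶠ[𝓝 x]
        fun _ => (1 : Matrix (Fin n) (Fin n) ℝ) a b := by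
      filter_upwards [(det_d h).continuousAt.eventually_ne h0] with y hy
      rw [← Matrix.mul_apply, Matrix.nonsing_inv_mul _ hy.isUnit]
    have e2 : pd k (fun y => ∑ l, (g y)⁻¹ a l * g y l b) x = 0 := by
      unfold pd
      rw [e1.fderiv_eq]
      simp
    rw [pd_sum k _ fun l => (inv_d h h0 a l).fun_mul (h l b)] at e2
    simp only [Matrix.add_apply, Matrix.mul_apply, Matrix.of_apply, ← Finset.sum_add_distrib,
      Matrix.zero_apply]
    rw [← e2]
    exact Finset.sum_congr rfl fun l _ => (pd_mul k (inv_d h h0 a l) (h l b)).symm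
  have e3 := congrArg (· * (g x)⁻¹) (eq_neg_of_add_eq_zero_left e)
  simp only [Matrix.mul_nonsing_inv_cancel_right _ _ h0.isUnit] at e3
  have e4 := congrFun (congrFun e3 i) j
  simp only [Matrix.of_apply, Matrix.neg_apply, Matrix.mul_apply, neg_mul, Finset.sum_mul,
    Finset.sum_neg_distrib] at e4
  rw [e4, Finset.sum_comm]

theorem sum4 (f : Fin n → Fin n → Fin n → Fin n → ℝ) :
    ∑ k, ∑ i, ∑ j, ∑ a, f k i j a = ∑ i, ∑ a, ∑ j, ∑ k, f k i j a := by
  rw [Finset.sum_comm]
  refine Finset.sum_congr rfl fun i _ => ?_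
  rw [Finset.sum_comm]
  simp_rw [Finset.sum_comm (f := fun k a => f k i _ a)]
  rw [Finset.sum_comm]

theorem alg (G : Fin n → Fin n → ℝ) (D C : Fin n → Fin n → Fin n → ℝ) (hG : ∀ i j, G i j = G j i)
    (hD : ∀ k i j, D k i j = D k j i)
    (hC : ∀ k i j, C k i j = 1 / 2 * ∑ l, G k l * (D i j l + D j i l - D l i j)) :
    ∑ k, ∑ i, ∑ j, (∑ l, ∑ a, G i l * D k l a * G a j) * C k i j =
      2 * ∑ i, ∑ j, G i j * ∑ k, ∑ l, C k j l * C l i k := by
  have s : ∀ k i j, C k i j = C k j i := fun k i j => by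
    rw [hC, hC]
    congr 1
    exact Finset.sum_congr rfl fun l _ => by rw [hD l i j]; ring
  have e : ∀ k i j, ∑ l, ∑ a, G i l * D k l a * G a j =
      ∑ a, C i k a * G j a + ∑ a, C j k a * G i a := fun k i j => by
    simp only [hC, Finset.mul_sum, Finset.sum_mul]
    rw [Finset.sum_comm (f := fun a l => 1 / 2 * (G i l * (D k a l + D a k l - D l k a)) * G j a),
      ← Finset.sum_add_distrib]
    refine Finset.sum_congr rfl fun l _ => ?_
    rw [← Finset.sum_add_distrib]
    refine Finset.sum_congr rfl fun a _ => ?_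
    rw [hG a j, hD k a l]
    ring
  have q : ∑ k, ∑ i, ∑ j, (∑ a, C j k a * G i a) * C k i j =
      ∑ i, ∑ j, G i j * ∑ k, ∑ l, C k j l * C l i k := by
    simp only [Finset.mul_sum, Finset.sum_mul]
    rw [sum4]
    refine Finset.sum_congr rfl fun i _ => Finset.sum_congr rfl fun a _ =>
      Finset.sum_congr rfl fun j _ => Finset.sum_congr rfl fun k _ => ?_
    rw [s j k a]
    ring
  have q' : ∑ k, ∑ i, ∑ j, (∑ a, C i k a * G j a) * C k i j =
      ∑ k, ∑ i, ∑ j, (∑ a, C j k a * G i a) * C k i j := by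
    refine Finset.sum_congr rfl fun k _ => ?_
    rw [Finset.sum_comm]
    exact Finset.sum_congr rfl fun i _ => Finset.sum_congr rfl fun j _ => by rw [s k i j]
  simp only [e, add_mul, Finset.sum_add_distrib]
  rw [q', q, two_mul]

end GenR

open GenR in
theorem genR_pf : GenRStmt := by
  intro n g x h hs h0
  have h1 : ∀ i j, DifferentiableAt ℝ (fun y => g y i j) x :=
    fun a b => (h a b).differentiableAt (by norm_num)
  have sg : ∀ y i j, g y i j = g y j i := fun y i j => by
    conv_lhs => rw [← hs y]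
    rfl
  have sG : ∀ i j, (g x)⁻¹ i j = (g x)⁻¹ j i := fun i j => by
    conv_lhs => rw [← hs x, ← Matrix.transpose_nonsing_inv]
    rfl
  have sD : ∀ k i j, pd k (fun y => g y i j) x = pd k (fun y => g y j i) x := fun k i j => by
    simp only [sg _ i j]
  have sC : ∀ k i j, chr g k i j x = chr g k j i x := fun k i j => by
    unfold chr
    congr 1
    exact Finset.sum_congr rfl fun l _ => by rw [sD l i j]; ring
  have a := alg (fun i j => (g x)⁻¹ i j) (fun k i j => pd k (fun y => g y i j) x)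
    (fun k i j => chr g k i j x) sG sD fun _ _ _ => rfl
  have b : ∀ k, pd k (fun y => ∑ i, ∑ j, (g y)⁻¹ i j * chr g k i j y) x =
      ∑ i, ∑ j, (g x)⁻¹ i j * pd k (chr g k i j) x - ∑ i, ∑ j,
        (∑ l, ∑ a, (g x)⁻¹ i l * pd k (fun y => g y l a) x * (g x)⁻¹ a j) * chr g k i j x :=
    fun k => by
      have d := fun i j => (inv_d h1 h0 i j).fun_mul (chr_d h h0 k i j)
      rw [pd_sum k _ fun i => DifferentiableAt.fun_sum fun j _ => d i j,
        ← Finset.sum_sub_distrib]
      refine Finset.sum_congr rfl fun i _ => ?_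
      rw [pd_sum k _ fun j => d i j, ← Finset.sum_sub_distrib]
      refine Finset.sum_congr rfl fun j _ => ?_
      rw [pd_mul k (inv_d h1 h0 i j) (chr_d h h0 k i j), pd_inv h1 h0]
      ring
  have c : ∀ i j, pd j (fun y => ∑ k, chr g k i k y) x = ∑ k, pd j (chr g k i k) x :=
    fun i j => pd_sum j _ fun k => chr_d h h0 k i k
  have d1 : ∑ k, ∑ i, ∑ j, (g x)⁻¹ i j * pd k (chr g k i j) x =
      ∑ i, ∑ j, (g x)⁻¹ i j * ∑ k, pd k (chr g k i j) x := by
    rw [Finset.sum_comm]
    refine Finset.sum_congr rfl fun i _ => ?_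
    rw [Finset.sum_comm]
    simp only [Finset.mul_sum]
  have d2 : ∑ l, (∑ k, chr g k l k x) * (∑ i, ∑ j, (g x)⁻¹ i j * chr g l i j x) =
      ∑ i, ∑ j, (g x)⁻¹ i j * ∑ k, ∑ l, chr g k k l x * chr g l i j x := by
    simp only [Finset.mul_sum]
    rw [Finset.sum_comm]
    refine Finset.sum_congr rfl fun i _ => ?_
    rw [Finset.sum_comm]
    refine Finset.sum_congr rfl fun j _ => ?_
    rw [Finset.sum_comm]
    refine Finset.sum_congr rfl fun l _ => ?_
    rw [Finset.sum_mul]
    refine Finset.sum_congr rfl fun k _ => ?_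
    rw [sC k l k]
    ring
  simp only [b, c, Finset.sum_sub_distrib]
  rw [a, d1, d2]
  simp only [scal, ric, Finset.sum_add_distrib, Finset.sum_sub_distrib, mul_add, mul_sub]
  ring

end Vale.Agent.P366
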