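import Vale.Agent.P366.Stm

/-! First derivatives and smoothness of the ansatz. -/

namespace Vale.Agent.P366

open scoped Matrix ContDiff Topology
open Filter Set

variable {n : ℕ}

/-- `f` is differentiable at `x` with derivative `d` in the direction `u`. -/
def JHD (f : Pt n → ℝ) (x u : Pt n) (d : ℝ) : Prop :=
  ∃ L : Pt n →L[ℝ] ℝ, HasFDerivAt f L x ∧ L u = d

namespace JHD

variable {f g : Pt n → ℝ} {x u : Pt n} {d e : ℝ}

lemma add (hf : JHD f x u d) (hg : JHD g x u e) : JHD (fun y => f y + g y) x u (d + e) := by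
  obtain ⟨L, h1, rfl⟩ := hf
  obtain ⟨M, h2, rfl⟩ := hg
  exact ⟨L + M, h1.add h2, rfl⟩

lemma sub (hf : JHD f x u d) (hg : JHD g x u e) : JHD (fun y => f y - g y) x u (d - e) := by
  obtain ⟨L, h1, rfl⟩ := hf
  obtain ⟨M, h2, rfl⟩ := hg
  exact ⟨L - M, h1.sub h2, rfl⟩

lemma mul (hf : JHD f x u d) (hg : JHD g x u e) :
    JHD (fun y => f y * g y) x u (f x * e + g x * d) := by
  obtain ⟨L, h1, rfl⟩ := hf
  obtain ⟨M, h2, rfl⟩ := hg
  exact ⟨f x • M + g x • L, h1.mul h2, rfl⟩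

lemma const (c : ℝ) : JHD (fun _ => c) x u 0 := ⟨0, hasFDerivAt_const c x, rfl⟩

lemma app (i : Fin n) : JHD (fun y => y i) x u (u i) :=
  ⟨ContinuousLinearMap.proj i, hasFDerivAt_apply i x, rfl⟩

lemma sum {ι : Type*} (s : Finset ι) {F : ι → Pt n → ℝ} {D : ι → ℝ}
    (h : ∀ a, JHD (F a) x u (D a)) : JHD (fun y => ∑ a ∈ s, F a y) x u (∑ a ∈ s, D a) := by
  classical
  induction s using Finset.induction_on with
  | empty => simpa using const 0
  | insert a s ha ih => simpa [Finset.sum_insert ha] using (h a).add ih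

lemma comp {A : ℝ → ℝ} {A' : ℝ} (hf : JHD f x u d) (hA : HasDerivAt A A' (f x)) :
    JHD (fun y => A (f y)) x u (A' * d) := by
  obtain ⟨L, h1, rfl⟩ := hf
  exact ⟨A' • L, hA.comp_hasFDerivAt x h1, rfl⟩

lemma congr (hf : JHD f x u d) (h : d = e) : JHD f x u e := h ▸ hf

lemma dot : JHD (fun y => y ⬝ᵥ y) x u (2 * (x ⬝ᵥ u)) := by
  refine (sum Finset.univ fun i => (app (x := x) (u := u) i).mul (app i)).congr ?_
  simp only [dotProduct, Finset.mul_sum]
  exact Finset.sum_congr rfl fun i _ => by ring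

lemma mv (M : Matrix (Fin n) (Fin n) ℝ) (i : Fin n) :
    JHD (fun y => (M *ᵥ y) i) x u ((M *ᵥ u) i) := by
  refine (sum Finset.univ fun l => (const (x := x) (u := u) (M i l)).mul (app l)).congr ?_
  simp [Matrix.mulVec, dotProduct]

lemma pd_eq {k : Fin n} (hf : JHD f x (Pi.single k 1) d) : pd k f x = d := by
  obtain ⟨L, h1, rfl⟩ := hf
  unfold pd
  rw [h1.fderiv]

end JHD

lemma jet_dot_ne {x : Pt n} (hx : x ≠ 0) : x ⬝ᵥ x ≠ 0 := fun h => hx (dotProduct_self_eq_zero.1 h)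

lemma jet_blk (J : Fin 3 → Matrix (Fin n) (Fin n) ℝ) (y : Pt n) (A B C : ℝ) (i j : Fin n) :
    blk J y A B C i j = A * ((y ⬝ᵥ y)⁻¹ * (y i * y j))
      + B * ((y ⬝ᵥ y)⁻¹ * ∑ a, (J a *ᵥ y) i * (J a *ᵥ y) j)
      + C * ((1 : Matrix (Fin n) (Fin n) ℝ) i j - (y ⬝ᵥ y)⁻¹ * (y i * y j)
        - (y ⬝ᵥ y)⁻¹ * ∑ a, (J a *ᵥ y) i * (J a *ᵥ y) j) := by
  simp only [blk, pr0, pr1, Matrix.add_apply, Matrix.sub_apply, Matrix.smul_apply,
    Matrix.sum_apply, Matrix.vecMulVec_apply, smul_eq_mul]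

theorem jet_pf : JetStmt := by
  intro n J A B C x hx hA hB hC i j k
  have ht := jet_dot_ne hx
  set u : Pt n := Pi.single k 1 with hu
  have d0 : JHD (fun y => y ⬝ᵥ y) x u (2 * (x ⬝ᵥ u)) := JHD.dot
  have dA := d0.comp hA.hasDerivAt
  have dB := d0.comp hB.hasDerivAt
  have dC := d0.comp hC.hasDerivAt
  have dI := d0.comp (hasDerivAt_inv ht)
  have dP := dI.mul ((JHD.app (x := x) (u := u) i).mul (JHD.app j))
  have dQ := dI.mul (JHD.sum Finset.univ fun a =>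
    (JHD.mv (x := x) (u := u) (J a) i).mul (JHD.mv (J a) j))
  have dT := ((dA.mul dP).add (dB.mul dQ)).add
    (dC.mul (((JHD.const ((1 : Matrix (Fin n) (Fin n) ℝ) i j)).sub dP).sub dQ))
  have e : (fun y => hopf J A B C y i j) = _ := funext fun y => jet_blk J y _ _ _ i j
  rw [e, dT.pd_eq]
  simp only [Dm, Matrix.add_apply, Matrix.smul_apply, Matrix.vecMulVec_apply,
    smul_eq_mul, jet_blk, Fin.sum_univ_three]
  field_simp
  ring

theorem smooth_pf : SmoothStmt := by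
  intro n J A B C x hx hA hB hC i j
  have ht := jet_dot_ne hx
  have ap : ∀ l : Fin n, ContDiffAt ℝ 2 (fun y : Pt n => y l) x := fun l =>
    (contDiff_apply ℝ ℝ l).contDiffAt
  have d0 : ContDiffAt ℝ 2 (fun y : Pt n => y ⬝ᵥ y) x :=
    ContDiffAt.sum fun l _ => (ap l).mul (ap l)
  have mv : ∀ (a : Fin 3) (l : Fin n), ContDiffAt ℝ 2 (fun y : Pt n => (J a *ᵥ y) l) x :=
    fun a l => ContDiffAt.sum (s := Finset.univ) (f := fun m (y : Pt n) => J a l m * y m)
      fun m _ => contDiffAt_const.mul (ap m)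
  have h2 : (2 : WithTop ℕ∞) ≤ ∞ := WithTop.coe_le_coe.2 (le_top (a := (2 : ℕ∞)))
  have dA := (hA.of_le h2).contDiffAt.comp x d0
  have dB := (hB.of_le h2).contDiffAt.comp x d0
  have dC := (hC.of_le h2).contDiffAt.comp x d0
  have dI := d0.inv ht
  have dP := dI.mul ((ap i).mul (ap j))
  have dQ := dI.mul (ContDiffAt.sum (s := Finset.univ) fun a _ => (mv a i).mul (mv a j))
  have dT := ((dA.mul dP).add (dB.mul dQ)).add
    (dC.mul (((contDiffAt_const (c := (1 : Matrix (Fin n) (Fin n) ℝ) i j)).sub dP).sub dQ))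
  have e : (fun y => hopf J A B C y i j) = _ := funext fun y => jet_blk J y _ _ _ i j
  rw [e]
  exact dT

theorem rad_pf : RadStmt := by
  intro n f x hf i j
  have d0 : JHD (fun y => y ⬝ᵥ y) x (Pi.single j 1) (2 * (x ⬝ᵥ Pi.single j 1)) := JHD.dot
  rw [((d0.comp hf.hasDerivAt).mul (JHD.app i)).pd_eq]
  simp only [dotProduct_single, mul_one, Pi.single_apply]
  split_ifs <;> ring

end Vale.Agent.P366
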