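import Vale.Agent.P366.Alg

/-! The quadratic term in the Christoffel symbols. -/

namespace Vale.Agent.P366

open scoped Matrix
open Matrix

namespace QAux

variable {n : ℕ} {J : Fin 3 → Matrix (Fin n) (Fin n) ℝ} {x : Pt n}

theorem trL (p q : Pt n) (N : Matrix (Fin n) (Fin n) ℝ) :
    (vecMulVec p q * N).trace = q ⬝ᵥ (N *ᵥ p) := by
  rw [trace_mul_comm, mul_vecMulVec, trace_vecMulVec, dotProduct_comm]

theorem trR (p q : Pt n) (N : Matrix (Fin n) (Fin n) ℝ) :
    (N * vecMulVec p q).trace = q ⬝ᵥ (N *ᵥ p) := by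
  rw [trace_mul_comm, trL]

/-- The Christoffel symbols as a linear map. -/
noncomputable def gamL (J : Fin 3 → Matrix (Fin n) (Fin n) ℝ) (x : Pt n) (A B C A' B' C' : ℝ) :
    Pt n →ₗ[ℝ] Matrix (Fin n) (Fin n) ℝ where
  toFun := Gam J x A B C A' B' C'
  map_add' u v := by
    rw [Gam, Gam, Gam, ← Matrix.mul_add]
    refine congrArg _ ?_
    simp only [Tm, Fin.sum_univ_three, mulVec_add, vecMulVec_add, add_vecMulVec, dotProduct_add]
    module
  map_smul' c u := by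
    rw [Gam, Gam, RingHom.id_apply, ← Matrix.mul_smul]
    refine congrArg _ ?_
    simp only [Tm, Fin.sum_univ_three, mulVec_smul, vecMulVec_smul, smul_vecMulVec,
      dotProduct_smul, smul_eq_mul]
    module

theorem tm_x (h : IsQuat J) (hx : x ≠ 0) (A B C A' B' C' : ℝ) :
    Tm J x A B C A' B' C' x = (x ⬝ᵥ x) • blk J x A' B' C' := by
  have := (dot_pos hx).ne'
  simp only [Tm, blk_x h hx, h.self_dot, vecMulVec_smul, smul_vecMulVec]
  simp only [blk_eq, Fin.sum_univ_three]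
  match_scalars <;> field_simp <;> ring

theorem blk_JP (h : IsQuat J) (hx : x ≠ 0) (A B C : ℝ) (b : Fin 3) :
    blk J x A B C * (J b * blk J x 0 0 1) = C • (J b * blk J x 0 0 1) := by
  refine ext_iff_mulVec.2 fun u => ?_
  rw [smul_mulVec, ← mulVec_mulVec, ← mulVec_mulVec, blk_hor ((blk_hor_mem h hx u).map h b)]

theorem tm_y (h : IsQuat J) (hx : x ≠ 0) (A B C A' B' C' : ℝ) (b : Fin 3) :
    Tm J x A B C A' B' C' (J b *ᵥ x) = ((A - B) / (x ⬝ᵥ x) - B') • vecMulVec x (J b *ᵥ x) +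
      B' • vecMulVec (J b *ᵥ x) x + (B - C) • (J b * blk J x 0 0 1) := by
  have := (dot_pos hx).ne'
  simp only [Tm, blk_y h hx, h.dot_self, h.dot_yy, vecMulVec_smul, smul_vecMulVec, zero_smul]
  simp only [blk_eq, Fin.sum_univ_three, Matrix.mul_add, Matrix.mul_smul, Matrix.mul_one,
    mul_vecMulVec]
  fin_cases b <;>
  · simp only [Fin.zero_eta, Fin.mk_one, Fin.reduceFinMk, Fin.isValue, Fin.reduceEq, if_true,
      if_false, h.vaa, h.v01, h.v10, h.v02, h.v20, h.v12, h.v21, neg_vecMulVec]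
    match_scalars <;> field_simp <;> ring

theorem f_x (h : IsQuat J) (hx : x ≠ 0) (A B C A' B' C' : ℝ) :
    (Gam J x A B C A' B' C' x * Gam J x A B C A' B' C' x).trace =
      (x ⬝ᵥ x) ^ 2 * ((A' / A) ^ 2 + 3 * (B' / B) ^ 2 + ((n : ℝ) - 4) * (C' / C) ^ 2) := by
  simp only [Gam, tm_x h hx, Matrix.mul_smul, Matrix.smul_mul, blk_mul h hx, trace_smul,
    blk_trace h hx, smul_eq_mul]
  ring

theorem f_v (h : IsQuat J) (hx : x ≠ 0) (A B C A' B' C' : ℝ) {v : Pt n} (hv : Hor J x v) :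
    (Gam J x A B C A' B' C' v * Gam J x A B C A' B' C' v).trace =
      2 * (x ⬝ᵥ x) * ((A - C) / (x ⬝ᵥ x) - C') * C' / (A * C) * (v ⬝ᵥ v) := by
  have h1 : v ⬝ᵥ x = 0 := by rw [dotProduct_comm, hv.1]
  have e : Gam J x A B C A' B' C' v = (((A - C) / (x ⬝ᵥ x) - C') * A⁻¹) • vecMulVec x v +
      ((B - C) / (x ⬝ᵥ x) * C⁻¹) • ∑ a, vecMulVec (J a *ᵥ v) (J a *ᵥ x) +
      (C' * C⁻¹) • vecMulVec v x := by
    simp only [Gam, Tm, hv.1, hv.2, blk_hor hv, zero_smul, add_zero, Fin.sum_univ_three,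
      Matrix.mul_add, Matrix.mul_sub, Matrix.mul_smul, mul_vecMulVec, blk_x h hx,
      blk_hor (hv.map h _), vecMulVec_smul, smul_vecMulVec]
    module
  simp only [e, Fin.sum_univ_three, Matrix.add_mul, Matrix.smul_mul, trace_add, trace_smul, trL,
    add_mulVec, smul_mulVec, vecMulVec_mulVec, op_smul_eq_smul, dotProduct_add, dotProduct_smul,
    smul_eq_mul, h1, hv.1, hv.2, h.dot_self, h.self_dot, (hv.map h _).1, (hv.map h _).2]
  ring

theorem f_y (h : IsQuat J) (hx : x ≠ 0) (A B C A' B' C' : ℝ) (b : Fin 3) :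
    (Gam J x A B C A' B' C' (J b *ᵥ x) * Gam J x A B C A' B' C' (J b *ᵥ x)).trace =
      2 * (x ⬝ᵥ x) ^ 2 * ((A - B) / (x ⬝ᵥ x) - B') * B' / (A * B) -
        (B - C) ^ 2 * ((n : ℝ) - 4) / C ^ 2 := by
  have e : Gam J x A B C A' B' C' (J b *ᵥ x) =
      (((A - B) / (x ⬝ᵥ x) - B') * A⁻¹) • vecMulVec x (J b *ᵥ x) +
      (B' * B⁻¹) • vecMulVec (J b *ᵥ x) x + ((B - C) * C⁻¹) • (J b * blk J x 0 0 1) := by
    simp only [Gam, tm_y h hx, Matrix.mul_add, Matrix.mul_smul, mul_vecMulVec, blk_x h hx,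
      blk_y h hx, blk_JP h hx, smul_vecMulVec]
    module
  have e2 : (J b * blk J x 0 0 1 * (J b * blk J x 0 0 1)).trace = -((n : ℝ) - 4) := by
    rw [Matrix.mul_assoc, blk_JP h hx, one_smul, ← Matrix.mul_assoc, h.2.1, Matrix.neg_mul,
      Matrix.one_mul, trace_neg, blk_trace h hx]
    ring
  have e3 : (J b * blk J x 0 0 1) *ᵥ x = 0 := by
    rw [← mulVec_mulVec, blk_x h hx, zero_smul, mulVec_zero]
  have e4 : (J b * blk J x 0 0 1) *ᵥ (J b *ᵥ x) = 0 := by
    rw [← mulVec_mulVec, blk_y h hx, zero_smul, mulVec_zero]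
  rw [e]
  generalize J b * blk J x 0 0 1 = N at e2 e3 e4
  simp only [Matrix.add_mul, Matrix.mul_add, Matrix.smul_mul, Matrix.mul_smul, trace_add,
    trace_smul, e2, trL, trR, e3, e4, vecMulVec_mulVec, op_smul_eq_smul, dotProduct_smul,
    smul_eq_mul, h.dot_self, h.self_dot, h.dot_yy, if_true, dotProduct_zero]
  ring

end QAux

open QAux

theorem q_pf : QStmt := by
  intro n J x A B C A' B' C' h hx hA hB hC
  have ht := (dot_pos hx).ne'
  have key := contract h hx (LinearMap.mk₂ ℝ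
    (fun u v => (gamL J x A B C A' B' C' v * gamL J x A B C A' B' C' u).trace)
    (fun _ _ _ => by rw [map_add, Matrix.mul_add, trace_add])
    (fun _ _ _ => by rw [map_smul, Matrix.mul_smul, trace_smul])
    (fun _ _ _ => by rw [map_add, Matrix.add_mul, trace_add])
    (fun _ _ _ => by rw [map_smul, Matrix.smul_mul, trace_smul])) A⁻¹ B⁻¹ C⁻¹ _
    fun v hv => f_v h hx A B C A' B' C' hv
  refine key.trans ?_
  simp only [LinearMap.mk₂_apply, gamL, LinearMap.coe_mk, AddHom.coe_mk, f_x h hx, f_y h hx,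
    Fin.sum_univ_three, qq]
  field_simp
  ring

end Vale.Agent.P366
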