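import Vale.Agent.P366.Alg

/-! Contractions of the Christoffel symbols of the ansatz. -/

namespace Vale.Agent.P366

open scoped Matrix
open Matrix

namespace VW

variable {n : ℕ} {J : Fin 3 → Matrix (Fin n) (Fin n) ℝ}

theorem blk_dot (x u w : Pt n) (A B C : ℝ) :
    (blk J x A B C *ᵥ u) ⬝ᵥ w = u ⬝ᵥ (blk J x A B C *ᵥ w) := by
  rw [dotProduct_comm, Matrix.dotProduct_mulVec, ← Matrix.mulVec_transpose, blk_T, dotProduct_comm]

theorem tr_J (h : IsQuat J) (x : Pt n) (A B C : ℝ) (a : Fin 3) :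
    (blk J x A B C * J a).trace = 0 := by
  have := Matrix.trace_transpose (blk J x A B C * J a)
  rw [Matrix.transpose_mul, blk_T, h.1, Matrix.neg_mul, Matrix.trace_neg, Matrix.trace_mul_comm]
    at this
  linarith

theorem tm_vec (x : Pt n) (A B C A' B' C' : ℝ) (u w : Pt n) : Tm J x A B C A' B' C' u *ᵥ w =
    ((A - C) / (x ⬝ᵥ x) * (u ⬝ᵥ w)) • x
    + ((B - C) / (x ⬝ᵥ x)) • ∑ a, (((J a *ᵥ x) ⬝ᵥ w) • J a *ᵥ u + ((J a *ᵥ x) ⬝ᵥ u) • J a *ᵥ w)
    + (x ⬝ᵥ u) • blk J x (A' - (A - C) / (x ⬝ᵥ x)) (B' - (B - C) / (x ⬝ᵥ x)) C' *ᵥ w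
    + (x ⬝ᵥ w) • blk J x (A' - (A - C) / (x ⬝ᵥ x)) (B' - (B - C) / (x ⬝ᵥ x)) C' *ᵥ u
    - (u ⬝ᵥ blk J x (A' - (A - C) / (x ⬝ᵥ x)) (B' - (B - C) / (x ⬝ᵥ x)) C' *ᵥ w) • x := by
  simp only [Tm, Matrix.add_mulVec, Matrix.smul_mulVec, Matrix.sub_mulVec,
    Matrix.vecMulVec_mulVec, Fin.sum_univ_three, op_smul_eq_smul, blk_dot, smul_smul]

end VW

theorem v_pf : VStmt := by
  intro n J x A B C A' B' C' h hx hA hB hC k
  have t0 := (dot_pos hx).ne'
  have c := contract h hx (LinearMap.mk₂ ℝ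
    (fun u w => (blk J x A⁻¹ B⁻¹ C⁻¹ *ᵥ (Tm J x A B C A' B' C' u *ᵥ w)) k)
    (fun u u' w => by
      rw [← Pi.add_apply, ← Matrix.mulVec_add]
      refine congrArg (fun z => (_ *ᵥ z) k) ?_
      simp only [VW.tm_vec, Matrix.mulVec_add, dotProduct_add, add_dotProduct, Fin.sum_univ_three]
      module)
    (fun c u w => by
      rw [← Pi.smul_apply, ← Matrix.mulVec_smul]
      refine congrArg (fun z => (_ *ᵥ z) k) ?_
      simp only [VW.tm_vec, Matrix.mulVec_smul, dotProduct_smul, smul_dotProduct,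
        Fin.sum_univ_three, smul_eq_mul]
      module)
    (fun u w w' => by simp only [Matrix.mulVec_add, Pi.add_apply])
    (fun c u w => by simp only [Matrix.mulVec_smul, Pi.smul_apply]))
    A⁻¹ B⁻¹ C⁻¹ (((A - C) / (x ⬝ᵥ x) - C') * A⁻¹ * x k) fun v hv => by
      simp only [LinearMap.mk₂_apply, VW.tm_vec, hv.1, hv.2, blk_hor hv, zero_smul, add_zero,
        Finset.sum_const_zero, smul_zero, ← sub_smul, Matrix.mulVec_smul, blk_x h hx,
        dotProduct_smul, Pi.smul_apply, smul_eq_mul]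
      ring
  have e1 : Tm J x A B C A' B' C' x *ᵥ x = (x ⬝ᵥ x * A') • x := by
    simp only [VW.tm_vec, h.self_dot, blk_x h hx, zero_smul, add_zero, Finset.sum_const_zero,
      smul_zero, dotProduct_smul, smul_eq_mul]
    module
  have e2 : ∀ b, Tm J x A B C A' B' C' (J b *ᵥ x) *ᵥ (J b *ᵥ x) =
      (x ⬝ᵥ x * ((A - B) / (x ⬝ᵥ x) - B')) • x := fun b => by
    simp only [VW.tm_vec, h.dot_self, h.dot_yy, blk_y h hx, zero_smul, add_zero, ite_smul,
      Finset.sum_add_distrib, Finset.sum_ite_eq', Finset.mem_univ, if_true, h.vaa,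
      dotProduct_smul, smul_eq_mul, sub_div]
    module
  simp only [LinearMap.mk₂_apply, e1, e2, Matrix.mulVec_smul, blk_x h hx, Pi.smul_apply,
    smul_eq_mul, Fin.sum_univ_three (f := fun _ => _ * _)] at c
  simp only [Matrix.mulVec_single_one] at c
  refine c.trans ?_
  rw [vv]
  field_simp
  ring

theorem w_pf : WStmt := by
  intro n J x A B C A' B' C' h hx hA hB hC i
  have e : ∀ (a : Fin 3) (u : Pt n), (J a *ᵥ u) ⬝ᵥ (J a *ᵥ x) = x ⬝ᵥ u := fun a u => by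
    rw [h.skew, h.vaa, dotProduct_neg, neg_neg, dotProduct_comm]
  have k : ∀ u, (Gam J x A B C A' B' C' u).trace = ww ((n : ℝ) - 4) A B C A' B' C' * (x ⬝ᵥ u) :=
    fun u => by
    simp only [Gam, Tm, Matrix.mul_add, Matrix.mul_sub, Matrix.mul_smul, Fin.sum_univ_three,
      Matrix.trace_add, Matrix.trace_sub, Matrix.trace_smul, VW.tr_J h, blk_mul h hx,
      blk_trace h hx, Matrix.mul_vecMulVec, Matrix.trace_vecMulVec, VW.blk_dot, blk_x h hx,
      blk_y h hx, dotProduct_smul, smul_dotProduct, smul_eq_mul, e]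
    rw [← VW.blk_dot, blk_x h hx, smul_dotProduct, dotProduct_comm u x, ww, smul_eq_mul]
    ring
  simpa [Matrix.trace] using k (Pi.single i 1)

end Vale.Agent.P366
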