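import Vale.Agent.P366.Stm

/-! Algebra of the block matrices. -/

namespace Vale.Agent.P366

open scoped Matrix
open Matrix

variable {n : ℕ} {J : Fin 3 → Matrix (Fin n) (Fin n) ℝ}

theorem dot_pos {x : Pt n} (hx : x ≠ 0) : 0 < x ⬝ᵥ x :=
  lt_of_le_of_ne (dotProduct_self_nonneg' x) (fun h => hx (dotProduct_self_eq_zero.1 h.symm))
where dotProduct_self_nonneg' (x : Pt n) : 0 ≤ x ⬝ᵥ x :=
  Finset.sum_nonneg fun i _ => mul_self_nonneg (x i)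

theorem IsQuat.m10 (h : IsQuat J) : J 1 * J 0 = -J 2 := by
  have := congrArg Matrix.transpose h.2.2
  rw [Matrix.transpose_mul, h.1, h.1, h.1] at this
  simpa using this

theorem IsQuat.m02 (h : IsQuat J) : J 0 * J 2 = -J 1 := by
  rw [← h.2.2, ← Matrix.mul_assoc, h.2.1]; simp

theorem IsQuat.m20 (h : IsQuat J) : J 2 * J 0 = J 1 := by
  rw [← h.2.2, Matrix.mul_assoc, h.m10, Matrix.mul_neg, h.m02, neg_neg]

theorem IsQuat.m21 (h : IsQuat J) : J 2 * J 1 = -J 0 := by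
  rw [← h.2.2, Matrix.mul_assoc, h.2.1]; simp

theorem IsQuat.m12 (h : IsQuat J) : J 1 * J 2 = J 0 := by
  rw [← h.2.2, ← Matrix.mul_assoc, h.m10, Matrix.neg_mul, h.m21, neg_neg]

theorem IsQuat.skew (h : IsQuat J) (a : Fin 3) (u v : Pt n) :
    (J a *ᵥ u) ⬝ᵥ v = -(u ⬝ᵥ (J a *ᵥ v)) := by
  rw [dotProduct_comm, Matrix.dotProduct_mulVec, ← Matrix.mulVec_transpose, h.1, Matrix.neg_mulVec,
    neg_dotProduct, dotProduct_comm]

theorem IsQuat.dot_self (h : IsQuat J) (a : Fin 3) (u : Pt n) : u ⬝ᵥ (J a *ᵥ u) = 0 := by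
  have := h.skew a u u
  rw [dotProduct_comm] at this
  linarith

theorem IsQuat.self_dot (h : IsQuat J) (a : Fin 3) (u : Pt n) : (J a *ᵥ u) ⬝ᵥ u = 0 := by
  rw [dotProduct_comm, h.dot_self]

theorem IsQuat.v00 (h : IsQuat J) (u : Pt n) : J 0 *ᵥ (J 0 *ᵥ u) = -u := by
  rw [Matrix.mulVec_mulVec, h.2.1]; simp [Matrix.neg_mulVec]
theorem IsQuat.v11 (h : IsQuat J) (u : Pt n) : J 1 *ᵥ (J 1 *ᵥ u) = -u := by
  rw [Matrix.mulVec_mulVec, h.2.1]; simp [Matrix.neg_mulVec]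
theorem IsQuat.v22 (h : IsQuat J) (u : Pt n) : J 2 *ᵥ (J 2 *ᵥ u) = -u := by
  rw [Matrix.mulVec_mulVec, h.2.1]; simp [Matrix.neg_mulVec]
theorem IsQuat.vaa (h : IsQuat J) (a : Fin 3) (u : Pt n) : J a *ᵥ (J a *ᵥ u) = -u := by
  rw [Matrix.mulVec_mulVec, h.2.1]; simp [Matrix.neg_mulVec]
theorem IsQuat.v01 (h : IsQuat J) (u : Pt n) : J 0 *ᵥ (J 1 *ᵥ u) = J 2 *ᵥ u := by
  rw [Matrix.mulVec_mulVec, h.2.2]
theorem IsQuat.v10 (h : IsQuat J) (u : Pt n) : J 1 *ᵥ (J 0 *ᵥ u) = -(J 2 *ᵥ u) := by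
  rw [Matrix.mulVec_mulVec, h.m10, Matrix.neg_mulVec]
theorem IsQuat.v02 (h : IsQuat J) (u : Pt n) : J 0 *ᵥ (J 2 *ᵥ u) = -(J 1 *ᵥ u) := by
  rw [Matrix.mulVec_mulVec, h.m02, Matrix.neg_mulVec]
theorem IsQuat.v20 (h : IsQuat J) (u : Pt n) : J 2 *ᵥ (J 0 *ᵥ u) = J 1 *ᵥ u := by
  rw [Matrix.mulVec_mulVec, h.m20]
theorem IsQuat.v12 (h : IsQuat J) (u : Pt n) : J 1 *ᵥ (J 2 *ᵥ u) = J 0 *ᵥ u := by
  rw [Matrix.mulVec_mulVec, h.m12]
theorem IsQuat.v21 (h : IsQuat J) (u : Pt n) : J 2 *ᵥ (J 1 *ᵥ u) = -(J 0 *ᵥ u) := by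
  rw [Matrix.mulVec_mulVec, h.m21, Matrix.neg_mulVec]

theorem IsQuat.dot_yy (h : IsQuat J) (a b : Fin 3) (u : Pt n) :
    (J a *ᵥ u) ⬝ᵥ (J b *ᵥ u) = if a = b then u ⬝ᵥ u else 0 := by
  rw [h.skew]
  fin_cases a <;> fin_cases b <;>
    simp [h.v00, h.v11, h.v22, h.v01, h.v10, h.v02, h.v20, h.v12, h.v21, h.dot_self]

/-- Horizontal vectors at `x`. -/
def Hor (J : Fin 3 → Matrix (Fin n) (Fin n) ℝ) (x v : Pt n) : Prop :=
  x ⬝ᵥ v = 0 ∧ ∀ a, (J a *ᵥ x) ⬝ᵥ v = 0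

theorem Hor.map (h : IsQuat J) {x v : Pt n} (hv : Hor J x v) (b : Fin 3) : Hor J x (J b *ᵥ v) := by
  have e : ∀ u : Pt n, u ⬝ᵥ (J b *ᵥ v) = -((J b *ᵥ u) ⬝ᵥ v) := fun u => by rw [h.skew, neg_neg]
  refine ⟨by rw [e, hv.2, neg_zero], fun a => ?_⟩
  rw [e]
  have h0 := hv.1
  have h1 := hv.2 0
  have h2 := hv.2 1
  have h3 := hv.2 2
  fin_cases a <;> fin_cases b <;>
    simp [h.v00, h.v11, h.v22, h.v01, h.v10, h.v02, h.v20, h.v12, h.v21, h0, h1, h2, h3]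

theorem blk_mulVec (J : Fin 3 → Matrix (Fin n) (Fin n) ℝ) (x u : Pt n) (A B C : ℝ) :
    blk J x A B C *ᵥ u = C • u + ((A - C) / (x ⬝ᵥ x) * (x ⬝ᵥ u)) • x
      + ∑ a, ((B - C) / (x ⬝ᵥ x) * ((J a *ᵥ x) ⬝ᵥ u)) • (J a *ᵥ x) := by
  simp only [blk, pr0, pr1, Matrix.add_mulVec, Matrix.smul_mulVec, Matrix.sub_mulVec,
    Matrix.one_mulVec, Matrix.vecMulVec_mulVec, Fin.sum_univ_three, op_smul_eq_smul]
  simp only [div_eq_mul_inv]
  module

theorem blk_eq (J : Fin 3 → Matrix (Fin n) (Fin n) ℝ) (x : Pt n) (A B C : ℝ) :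
    blk J x A B C = C • (1 : Matrix (Fin n) (Fin n) ℝ) + ((A - C) / (x ⬝ᵥ x)) • vecMulVec x x
      + ((B - C) / (x ⬝ᵥ x)) • ∑ a, vecMulVec (J a *ᵥ x) (J a *ᵥ x) := by
  simp only [blk, pr0, pr1, div_eq_mul_inv]
  module

theorem blk_x (h : IsQuat J) {x : Pt n} (hx : x ≠ 0) (A B C : ℝ) :
    blk J x A B C *ᵥ x = A • x := by
  have := (dot_pos hx).ne'
  rw [blk_mulVec]
  simp only [h.self_dot, mul_zero, zero_smul, Finset.sum_const_zero, add_zero,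
    div_mul_cancel₀ _ this]
  module

theorem blk_y (h : IsQuat J) {x : Pt n} (hx : x ≠ 0) (A B C : ℝ) (b : Fin 3) :
    blk J x A B C *ᵥ (J b *ᵥ x) = B • (J b *ᵥ x) := by
  have := (dot_pos hx).ne'
  rw [blk_mulVec]
  simp only [h.dot_self, h.dot_yy, mul_ite, mul_zero, zero_smul, ite_smul, Finset.sum_ite_eq',
    Finset.mem_univ, if_true, add_zero, div_mul_cancel₀ _ this]
  module

theorem blk_hor {x v : Pt n} (hv : Hor J x v) (A B C : ℝ) : blk J x A B C *ᵥ v = C • v := by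
  rw [blk_mulVec]
  simp [hv.1, hv.2]

theorem blk_T (J : Fin 3 → Matrix (Fin n) (Fin n) ℝ) (x : Pt n) (A B C : ℝ) :
    (blk J x A B C)ᵀ = blk J x A B C := by
  rw [blk_eq]
  simp [Matrix.transpose_sum]

theorem blk_symm (J : Fin 3 → Matrix (Fin n) (Fin n) ℝ) (x : Pt n) (A B C : ℝ) (i j : Fin n) :
    blk J x A B C i j = blk J x A B C j i := by
  conv_lhs => rw [← blk_T]
  rfl

theorem blk_one (J : Fin 3 → Matrix (Fin n) (Fin n) ℝ) (x : Pt n) : blk J x 1 1 1 = 1 := by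
  rw [blk_eq]; simp

theorem blk_hor_mem (h : IsQuat J) {x : Pt n} (hx : x ≠ 0) (u : Pt n) :
    Hor J x (blk J x 0 0 1 *ᵥ u) := by
  constructor
  · rw [Matrix.dotProduct_mulVec, ← Matrix.mulVec_transpose, blk_T, blk_x h hx]; simp
  · intro a
    rw [Matrix.dotProduct_mulVec, ← Matrix.mulVec_transpose, blk_T, blk_y h hx]; simp

/-- Decomposition of a vector. -/
theorem decomp (J : Fin 3 → Matrix (Fin n) (Fin n) ℝ) (x u : Pt n) :
    u = blk J x 0 0 1 *ᵥ u + ((x ⬝ᵥ u) / (x ⬝ᵥ x)) • x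
      + ∑ a, (((J a *ᵥ x) ⬝ᵥ u) / (x ⬝ᵥ x)) • (J a *ᵥ x) := by
  rw [blk_mulVec]
  simp only [Fin.sum_univ_three, div_eq_mul_inv]
  module

theorem blk_mul (h : IsQuat J) {x : Pt n} (hx : x ≠ 0) (A B C A' B' C' : ℝ) :
    blk J x A B C * blk J x A' B' C' = blk J x (A * A') (B * B') (C * C') := by
  apply Matrix.toLin'.injective
  ext1
  ext1
  rename_i i
  simp only [LinearMap.comp_apply, Matrix.toLin'_apply, ← Matrix.mulVec_mulVec]
  generalize (LinearMap.single ℝ (fun _ => ℝ) i) 1 = u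
  have hv := blk_hor_mem h hx u
  rw [decomp J x u]
  generalize blk J x 0 0 1 *ᵥ u = v at hv
  simp only [Fin.sum_univ_three, Matrix.mulVec_add, Matrix.mulVec_smul, blk_x h hx, blk_y h hx,
    blk_hor hv]
  module

theorem blk_add (J : Fin 3 → Matrix (Fin n) (Fin n) ℝ) (x : Pt n) (A B C A' B' C' : ℝ) :
    blk J x A B C + blk J x A' B' C' = blk J x (A + A') (B + B') (C + C') := by
  simp only [blk]; module

theorem blk_sub (J : Fin 3 → Matrix (Fin n) (Fin n) ℝ) (x : Pt n) (A B C A' B' C' : ℝ) :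
    blk J x A B C - blk J x A' B' C' = blk J x (A - A') (B - B') (C - C') := by
  simp only [blk]; module

theorem blk_smul (J : Fin 3 → Matrix (Fin n) (Fin n) ℝ) (x : Pt n) (s A B C : ℝ) :
    s • blk J x A B C = blk J x (s * A) (s * B) (s * C) := by
  simp only [blk]; module

theorem blk_trace (h : IsQuat J) {x : Pt n} (hx : x ≠ 0) (A B C : ℝ) :
    (blk J x A B C).trace = A + 3 * B + ((n : ℝ) - 4) * C := by
  have := (dot_pos hx).ne'
  rw [blk_eq]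
  simp only [Fin.sum_univ_three, Matrix.trace_add, Matrix.trace_smul, Matrix.trace_one,
    Matrix.trace_vecMulVec, h.dot_yy, if_true, smul_eq_mul, Fintype.card_fin]
  field_simp
  ring

theorem blk_inv (h : IsQuat J) {x : Pt n} (hx : x ≠ 0) {A B C : ℝ} (hA : A ≠ 0) (hB : B ≠ 0)
    (hC : C ≠ 0) : (blk J x A B C)⁻¹ = blk J x A⁻¹ B⁻¹ C⁻¹ := by
  apply Matrix.inv_eq_right_inv
  rw [blk_mul h hx, mul_inv_cancel₀ hA, mul_inv_cancel₀ hB, mul_inv_cancel₀ hC, blk_one]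

theorem blk_det_ne (h : IsQuat J) {x : Pt n} (hx : x ≠ 0) {A B C : ℝ} (hA : A ≠ 0) (hB : B ≠ 0)
    (hC : C ≠ 0) : (blk J x A B C).det ≠ 0 := by
  have : blk J x A B C * blk J x A⁻¹ B⁻¹ C⁻¹ = 1 := by
    rw [blk_mul h hx, mul_inv_cancel₀ hA, mul_inv_cancel₀ hB, mul_inv_cancel₀ hC, blk_one]
  exact (Matrix.isUnit_det_of_right_inverse this).ne_zero

theorem sum_mul_mul (M : Matrix (Fin n) (Fin n) ℝ) (u v : Pt n) :
    ∑ i, ∑ j, M i j * u i * v j = u ⬝ᵥ (M *ᵥ v) := by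
  simp only [dotProduct, Matrix.mulVec, Finset.mul_sum]
  exact Finset.sum_congr rfl fun i _ => Finset.sum_congr rfl fun j _ => by ring

theorem sum_mul_trace (M N : Matrix (Fin n) (Fin n) ℝ) :
    ∑ i, ∑ j, M i j * N i j = (Mᵀ * N).trace := by
  simp only [Matrix.trace, Matrix.diag, Matrix.mul_apply, Matrix.transpose_apply]
  rw [Finset.sum_comm]

/-- Contraction of a bilinear form with a block matrix. -/
theorem contract (h : IsQuat J) {x : Pt n} (hx : x ≠ 0) (F : Pt n →ₗ[ℝ] Pt n →ₗ[ℝ] ℝ)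
    (α β γ κ : ℝ) (hF : ∀ v, Hor J x v → F v v = κ * (v ⬝ᵥ v)) :
    ∑ i, ∑ j, blk J x α β γ i j * F (Pi.single i 1) (Pi.single j 1) =
      α / (x ⬝ᵥ x) * F x x + β / (x ⬝ᵥ x) * ∑ a, F (J a *ᵥ x) (J a *ᵥ x)
        + γ * κ * ((n : ℝ) - 4) := by
  have key : ∀ u v : Pt n, ∑ i, ∑ j, vecMulVec u v i j * F (Pi.single i 1) (Pi.single j 1)
      = F u v := by
    intro u v
    conv_rhs => rw [pi_eq_sum_univ' u, pi_eq_sum_univ' v]
    simp only [map_sum, map_smul, LinearMap.sum_apply, LinearMap.smul_apply, smul_eq_mul,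
      Finset.mul_sum, vecMulVec_apply]
    rw [Finset.sum_comm]
    exact Finset.sum_congr rfl fun i _ => Finset.sum_congr rfl fun j _ => by ring
  set Pm := blk J x 0 0 1 with hP
  have hPP : Pm = ∑ k, vecMulVec (Pm *ᵥ Pi.single k 1) (Pm *ᵥ Pi.single k 1) := by
    have : Pm = Pm * Pmᵀ := by rw [hP, blk_T, blk_mul h hx]; simp
    ext i j
    conv_lhs => rw [this]
    simp [Matrix.mul_apply, Matrix.sum_apply, vecMulVec_apply]
  have htr : ∑ k, (Pm *ᵥ Pi.single k 1) ⬝ᵥ (Pm *ᵥ Pi.single k 1) = (n : ℝ) - 4 := by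
    have := congrArg Matrix.trace hPP
    rw [Matrix.trace_sum] at this
    simp only [Matrix.trace_vecMulVec] at this
    rw [← this, hP, blk_trace h hx]; ring
  have hb : blk J x α β γ = (α / (x ⬝ᵥ x)) • vecMulVec x x
      + (β / (x ⬝ᵥ x)) • ∑ a, vecMulVec (J a *ᵥ x) (J a *ᵥ x)
      + γ • ∑ k, vecMulVec (Pm *ᵥ Pi.single k 1) (Pm *ᵥ Pi.single k 1) := by
    rw [← hPP, hP, blk_eq, blk_eq]
    simp only [div_eq_mul_inv]
    module
  have h3 : ∑ k, F (Pm *ᵥ Pi.single k 1) (Pm *ᵥ Pi.single k 1) = κ * ((n : ℝ) - 4) := by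
    rw [← htr, Finset.mul_sum]
    exact Finset.sum_congr rfl fun k _ => hF _ (blk_hor_mem h hx _)
  let L : Matrix (Fin n) (Fin n) ℝ →ₗ[ℝ] ℝ :=
    { toFun := fun M => ∑ i, ∑ j, M i j * F (Pi.single i 1) (Pi.single j 1)
      map_add' := fun M N => by simp [add_mul, Finset.sum_add_distrib]
      map_smul' := fun c M => by simp [Finset.mul_sum, mul_assoc] }
  have key' : ∀ u v : Pt n, L (vecMulVec u v) = F u v := key
  change L (blk J x α β γ) = _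
  rw [hb]
  simp only [map_add, map_smul, map_sum, key', smul_eq_mul, h3, mul_assoc]

end Vale.Agent.P366
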