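import Vale.Agent.P366.Stm

/-! The continuity argument. -/

namespace Vale.Agent.P366

open scoped Matrix ContDiff Topology
open Filter Set

theorem cont_pf : ContStmt := by
  intro f a hc h0 hd
  have mono : ∀ t, a ≤ t → (∀ s ∈ Ioo a t, 0 ≤ f s) → f a ≤ f t := fun t ht hs => by
    refine monotoneOn_of_deriv_nonneg (convex_Icc a t) (hc.mono Icc_subset_Ici_self) ?_ ?_
      (left_mem_Icc.2 ht) (right_mem_Icc.2 ht) ht <;> rw [interior_Icc] <;> intro s h
    · exact (hd s h.1 (hs s h)).1.differentiableWithinAt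
    · exact (hd s h.1 (hs s h)).2
  intro t ht
  refine mono t ht fun s hs => ?_
  by_contra hn
  have hK : IsCompact (Icc a s ∩ f ⁻¹' Iic 0) :=
    isCompact_Icc.of_isClosed_subset ((hc.mono Icc_subset_Ici_self).preimage_isClosed_of_isClosed
      isClosed_Icc isClosed_Iic) inter_subset_left
  obtain ⟨u, hu, hl⟩ := hK.exists_isLeast ⟨s, right_mem_Icc.2 hs.1.le, (not_le.1 hn).le⟩
  have := mono u hu.1.1 fun v hv => le_of_not_ge fun h =>
    (hl ⟨⟨hv.1.le, hv.2.le.trans hu.1.2⟩, h⟩).not_gt hv.2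
  exact (h0.trans_le this).not_ge hu.2

end Vale.Agent.P366
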