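import Vale.Agent.P366.Alg

/-! The radial component of the current. -/

namespace Vale.Agent.P366

open scoped Matrix ContDiff Topology
open Filter Set

variable {n : ℕ}

theorem cur_alg (G P M : Matrix (Fin n) (Fin n) ℝ) (Dd Γ : Fin n → Matrix (Fin n) (Fin n) ℝ)
    (x : Pt n) (v p t : ℝ) (hV : ∀ k, ∑ i, ∑ j, G i j * Γ i k j = v * x k)
    (hX : ∀ k i, ∑ j, Γ i k j * x j = t * M k i) (hP : ∀ l, ∑ j, P l j * x j = p * x l) :
    ∑ j, (∑ i, ∑ k, G i k * (Dd i k j - ∑ l, Γ i l k * P l j - ∑ l, Γ i l j * P k l)) * x j =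
      ∑ i, ∑ k, ∑ j, G i k * Dd i k j * x j - v * p * (x ⬝ᵥ x) - t * (G * (P * M)).trace := by
  have h1 : ∀ i k, ∑ j, (∑ l, Γ i l k * P l j) * x j = ∑ l, Γ i l k * (p * x l) := fun i k => by
    simp only [← hP, Finset.sum_mul, Finset.mul_sum, mul_assoc]
    exact Finset.sum_comm
  have h2 : ∀ i k, ∑ j, (∑ l, Γ i l j * P k l) * x j = ∑ l, P k l * (t * M l i) := fun i k => by
    simp only [← hX, Finset.sum_mul, Finset.mul_sum]
    rw [Finset.sum_comm]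
    exact Finset.sum_congr rfl fun _ _ => Finset.sum_congr rfl fun _ _ => by ring
  have h3 : ∑ i, ∑ k, G i k * ∑ l, Γ i l k * (p * x l) = v * p * (x ⬝ᵥ x) := by
    have : v * p * (x ⬝ᵥ x) = ∑ l, (∑ i, ∑ k, G i k * Γ i l k) * (p * x l) := by
      simp only [hV, dotProduct, Finset.mul_sum]
      exact Finset.sum_congr rfl fun _ _ => by ring
    rw [this]
    simp only [Finset.sum_mul, Finset.mul_sum, mul_assoc]
    refine Eq.trans (Finset.sum_congr rfl fun _ _ => Finset.sum_comm) Finset.sum_comm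
  have h4 : ∑ i, ∑ k, G i k * ∑ l, P k l * (t * M l i) = t * (G * (P * M)).trace := by
    simp only [Matrix.trace, Matrix.diag, Matrix.mul_apply, Finset.mul_sum]
    exact Finset.sum_congr rfl fun _ _ => Finset.sum_congr rfl fun _ _ =>
      Finset.sum_congr rfl fun _ _ => by ring
  have h5 : ∀ F : Fin n → Fin n → Fin n → ℝ, ∑ j, (∑ i, ∑ k, F i k j) * x j =
      ∑ i, ∑ k, ∑ j, F i k j * x j := fun F => by
    simp only [Finset.sum_mul]
    rw [Finset.sum_comm]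
    exact Finset.sum_congr rfl fun _ _ => Finset.sum_comm
  rw [← h3, ← h4, h5]
  simp only [← h1, ← h2, ← Finset.sum_sub_distrib]
  refine Finset.sum_congr rfl fun i _ => Finset.sum_congr rfl fun k _ => ?_
  rw [Finset.mul_sum, Finset.mul_sum, ← Finset.sum_sub_distrib, ← Finset.sum_sub_distrib]
  exact Finset.sum_congr rfl fun j _ => by ring

theorem cur_pf (hJ : JetStmt) (hK : KStmt) (hC : ChrStmt) (hV : VStmt) (hX : GxStmt)
    (hD : DivStmt) : CurStmt := by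
  intro n J D x hq hx hA hB hC'
  have ht := (dot_pos hx).ne'
  have hA' := hA.ne'
  set q : ℝ := (n : ℝ) - 4 with hqd
  let p0 : ℝ → ℝ := fun s => -(D.A s * PP q D s)
  let p1 : ℝ → ℝ := fun s => D.b s - (D.a s / D.A s + PP q D s) * D.B s
  let p2 : ℝ → ℝ := fun s => D.c s - (D.a s / D.A s + PP q D s) * D.C s
  have hm : ∀ y : Pt n, y ≠ 0 → 0 < D.A (y ⬝ᵥ y) → D.B (y ⬝ᵥ y) ≠ 0 → D.C (y ⬝ᵥ y) ≠ 0 →
      mom (hopf J D.A D.B D.C) (hopf J D.a D.b D.c) y = hopf J p0 p1 p2 y := by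
    intro y h0 h1 h2 h3
    have h4 : D.a (y ⬝ᵥ y) - (D.a (y ⬝ᵥ y) / D.A (y ⬝ᵥ y) + PP q D (y ⬝ᵥ y)) * D.A (y ⬝ᵥ y) =
        p0 (y ⬝ᵥ y) := by
      simp only [p0]
      field_simp
      ring
    simp only [mom]
    rw [(hK n J D y hq h0 h1 h2 h3).1]
    simp only [hopf]
    rw [blk_smul, blk_sub, h4]
  have hc : Continuous fun y : Pt n => y ⬝ᵥ y := by fun_prop
  have hev : ∀ᶠ y in 𝓝 x, mom (hopf J D.A D.B D.C) (hopf J D.a D.b D.c) y = hopf J p0 p1 p2 y := by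
    filter_upwards [isOpen_ne.mem_nhds hx,
      (D.hA.continuous.comp hc).continuousAt.eventually (lt_mem_nhds hA),
      (D.hB.continuous.comp hc).continuousAt.eventually_ne hB,
      (D.hC.continuous.comp hc).continuousAt.eventually_ne hC'] with y h0 h1 h2 h3
    exact hm y h0 h1 h2 h3
  have dA := D.hA.differentiable (by simp) (x ⬝ᵥ x)
  have dB := D.hB.differentiable (by simp) (x ⬝ᵥ x)
  have dC := D.hC.differentiable (by simp) (x ⬝ᵥ x)
  have da := D.ha.differentiable (by simp) (x ⬝ᵥ x)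
  have db := D.hb.differentiable (by simp) (x ⬝ᵥ x)
  have dc := D.hc.differentiable (by simp) (x ⬝ᵥ x)
  have dP : DifferentiableAt ℝ (PP q D) (x ⬝ᵥ x) :=
    ((db.div dB hB).const_mul 3).add ((dc.div dC hC').const_mul q)
  have dT := (da.div dA hA').add dP
  have d0 : HasDerivAt p0 (-(deriv D.A (x ⬝ᵥ x) * PP q D (x ⬝ᵥ x) +
      D.A (x ⬝ᵥ x) * deriv (PP q D) (x ⬝ᵥ x))) (x ⬝ᵥ x) := (dA.hasDerivAt.mul dP.hasDerivAt).neg
  have hpd : ∀ i k j, pd i (fun y => mom (hopf J D.A D.B D.C) (hopf J D.a D.b D.c) y k j) x =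
      Dm J x (p0 (x ⬝ᵥ x)) (p1 (x ⬝ᵥ x)) (p2 (x ⬝ᵥ x)) (deriv p0 (x ⬝ᵥ x)) (deriv p1 (x ⬝ᵥ x))
        (deriv p2 (x ⬝ᵥ x)) (Pi.single i 1) k j := fun i k j => by
    rw [← hJ n J p0 p1 p2 x hx d0.differentiableAt (db.sub (dT.mul dB)) (dc.sub (dT.mul dC))]
    unfold pd
    rw [Filter.EventuallyEq.fderiv_eq (f := fun y => hopf J p0 p1 p2 y k j)
      (hev.mono fun y hy => by simp only [hy])]
  simp only [cur, hpd, hC n J D x hq hx hA' hB hC', hm x hx hA hB hC']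
  simp only [hopf, blk_inv hq hx hA' hB hC']
  rw [cur_alg _ _ _ (fun i => Dm J x _ _ _ _ _ _ (Pi.single i 1))
    (fun i => Gam J x _ _ _ _ _ _ (Pi.single i 1)) x _ (p0 (x ⬝ᵥ x)) _
    (hV n J x _ _ _ _ _ _ hq hx hA' hB hC') (hX n J x _ _ _ _ _ _ hq hx hA' hB hC')
    (fun l => congrFun (blk_x hq hx _ _ _) l), (hD n J x _ _ _ _ _ _ _ _ _ hq hx).1, blk_mul hq hx,
    blk_mul hq hx, blk_trace hq hx, d0.deriv]
  simp only [p0, p1, p2, J1, vv, hh, ll, ← hqd]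
  generalize deriv (PP q D) (x ⬝ᵥ x) = P'
  simp only [PP]
  field_simp
  ring

end Vale.Agent.P366
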