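import Vale.Agent.P366.Alg

/-! Decay of the six functions from asymptotic flatness. -/

namespace Vale.Agent.P366

open scoped Matrix ContDiff Topology
open Filter Set

variable {n : ℕ}

theorem dc_sq_le (u : Pt n) (i : Fin n) : u i * u i ≤ u ⬝ᵥ u :=
  Finset.single_le_sum (f := fun k => u k * u k) (fun k _ => mul_self_nonneg (u k))
    (Finset.mem_univ i)

theorem dc_mul_le (u : Pt n) (i j : Fin n) : |u i * u j| ≤ u ⬝ᵥ u := by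
  have h1 := dc_sq_le u i
  have h2 := dc_sq_le u j
  rw [abs_le]
  constructor
  · nlinarith [mul_self_nonneg (u i + u j)]
  · nlinarith [mul_self_nonneg (u i - u j)]

theorem dc_abs_le (u : Pt n) (i : Fin n) : |u i| ≤ rad u := by
  unfold rad
  apply Real.abs_le_sqrt
  rw [sq]
  exact dc_sq_le u i

theorem dc_quad (N : Matrix (Fin n) (Fin n) ℝ) (m : ℝ) (hN : ∀ i j, |N i j| ≤ m) (u : Pt n) :
    |u ⬝ᵥ (N *ᵥ u)| ≤ (n : ℝ) ^ 2 * m * (u ⬝ᵥ u) := by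
  rw [← sum_mul_mul]
  calc |∑ i, ∑ j, N i j * u i * u j| ≤ ∑ i, |∑ j, N i j * u i * u j| :=
        Finset.abs_sum_le_sum_abs _ _
    _ ≤ ∑ _i : Fin n, ∑ _j : Fin n, m * (u ⬝ᵥ u) := by
        refine Finset.sum_le_sum fun i _ => (Finset.abs_sum_le_sum_abs _ _).trans ?_
        refine Finset.sum_le_sum fun j _ => ?_
        rw [mul_assoc, abs_mul]
        exact mul_le_mul (hN i j) (dc_mul_le u i j) (abs_nonneg _)
          ((abs_nonneg _).trans (hN i j))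
    _ = (n : ℝ) ^ 2 * m * (u ⬝ᵥ u) := by
        simp only [Finset.sum_const, Finset.card_univ, Fintype.card_fin, nsmul_eq_mul]
        ring

theorem dc_trace (N : Matrix (Fin n) (Fin n) ℝ) (m : ℝ) (hN : ∀ i j, |N i j| ≤ m) :
    |N.trace| ≤ (n : ℝ) * m := by
  calc |N.trace| ≤ ∑ i, |N i i| := Finset.abs_sum_le_sum_abs _ _
    _ ≤ ∑ _i : Fin n, m := Finset.sum_le_sum fun i _ => hN i i
    _ = (n : ℝ) * m := by
        simp only [Finset.sum_const, Finset.card_univ, Fintype.card_fin, nsmul_eq_mul]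

theorem dc_eig {J : Fin 3 → Matrix (Fin n) (Fin n) ℝ} (h : IsQuat J) (hn : 4 < n) {x : Pt n}
    (hx : x ≠ 0) (α β γ m : ℝ) (hN : ∀ i j, |blk J x α β γ i j| ≤ m) :
    |α| ≤ (5 * (n : ℝ) ^ 2) * m ∧ |β| ≤ (5 * (n : ℝ) ^ 2) * m ∧ |γ| ≤ (5 * (n : ℝ) ^ 2) * m := by
  have ht := dot_pos hx
  have hm : 0 ≤ m := (abs_nonneg _).trans (hN ⟨0, by omega⟩ ⟨0, by omega⟩)
  have hn' : (5 : ℝ) ≤ n := by exact_mod_cast hn
  have h1 := dc_quad _ m hN x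
  rw [blk_x h hx, dotProduct_smul, smul_eq_mul, abs_mul, abs_of_pos ht] at h1
  have ha : |α| ≤ (n : ℝ) ^ 2 * m := le_of_mul_le_mul_right h1 ht
  have h2 := dc_quad _ m hN (J 0 *ᵥ x)
  rw [blk_y h hx, dotProduct_smul, smul_eq_mul, abs_mul, h.dot_yy, if_pos rfl,
    abs_of_pos ht] at h2
  have hb : |β| ≤ (n : ℝ) ^ 2 * m := le_of_mul_le_mul_right h2 ht
  have h3 := dc_trace _ m hN
  rw [blk_trace h hx] at h3
  have hnm : 0 ≤ (n : ℝ) ^ 2 * m := by positivity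
  have hnn : (n : ℝ) * m ≤ (n : ℝ) ^ 2 * m := by
    apply mul_le_mul_of_nonneg_right _ hm
    nlinarith
  refine ⟨by linarith, by linarith, ?_⟩
  have h4 : |((n : ℝ) - 4) * γ| ≤ 5 * (n : ℝ) ^ 2 * m := by
    rw [abs_le] at ha hb h3 ⊢
    constructor <;> linarith [ha.1, ha.2, hb.1, hb.2, h3.1, h3.2]
  rw [abs_mul, abs_of_nonneg (by linarith : (0 : ℝ) ≤ (n : ℝ) - 4)] at h4
  nlinarith [abs_nonneg γ]

theorem dc_squeeze (p τ K : ℝ) (hp : 2 * p < τ) (f : ℝ → ℝ)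
    (hf : ∀ᶠ t in atTop, |f t| ≤ K * √t ^ (-τ)) :
    Tendsto (fun t : ℝ => t ^ p * f t) atTop (𝓝 0) := by
  have h0 : Tendsto (fun t : ℝ => K * t ^ (-(τ / 2 - p))) atTop (𝓝 (K * 0)) :=
    (tendsto_rpow_neg_atTop (by linarith)).const_mul K
  rw [mul_zero] at h0
  refine squeeze_zero_norm' ?_ h0
  filter_upwards [hf, eventually_gt_atTop (0 : ℝ)] with t h1 ht
  have e : t ^ (-(τ / 2 - p)) = t ^ p * √t ^ (-τ) := by
    rw [Real.sqrt_eq_rpow, ← Real.rpow_mul ht.le, ← Real.rpow_add ht]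
    congr 1
    ring
  have hpos : 0 ≤ t ^ p := Real.rpow_nonneg ht.le _
  rw [Real.norm_eq_abs, abs_mul, abs_of_nonneg hpos, e]
  calc t ^ p * |f t| ≤ t ^ p * (K * √t ^ (-τ)) := mul_le_mul_of_nonneg_left h1 hpos
    _ = K * (t ^ p * √t ^ (-τ)) := by ring

theorem dc_point (hJ : JetStmt) (hD : DivStmt) {J : Fin 3 → Matrix (Fin n) (Fin n) ℝ}
    (h : IsQuat J) (hn : 4 < n) (D : Dat) (M τ : ℝ) (x : Pt n) (hx : x ≠ 0)
    (hb : ∀ i j k : Fin n,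
      |hopf J D.A D.B D.C x i j - (if i = j then 1 else 0)| ≤ M * rad x ^ (-τ) ∧
      |pd k (fun y => hopf J D.A D.B D.C y i j) x| ≤ M * rad x ^ (-τ - 1) ∧
      |hopf J D.a D.b D.c x i j| ≤ M * rad x ^ (-1 - τ)) :
    |D.A (x ⬝ᵥ x) - 1| ≤ (5 * (n : ℝ) ^ 2 * M) * rad x ^ (-τ) ∧
    |D.B (x ⬝ᵥ x) - 1| ≤ (5 * (n : ℝ) ^ 2 * M) * rad x ^ (-τ) ∧
    |D.C (x ⬝ᵥ x) - 1| ≤ (5 * (n : ℝ) ^ 2 * M) * rad x ^ (-τ) ∧
    |(x ⬝ᵥ x) * deriv D.B (x ⬝ᵥ x)| ≤ (5 * (n : ℝ) ^ 2 * (n * M / 2)) * rad x ^ (-τ) ∧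
    |(x ⬝ᵥ x) * deriv D.C (x ⬝ᵥ x)| ≤ (5 * (n : ℝ) ^ 2 * (n * M / 2)) * rad x ^ (-τ) ∧
    |rad x * D.b (x ⬝ᵥ x)| ≤ (5 * (n : ℝ) ^ 2 * M) * rad x ^ (-τ) ∧
    |rad x * D.c (x ⬝ᵥ x)| ≤ (5 * (n : ℝ) ^ 2 * M) * rad x ^ (-τ) := by
  have ht := dot_pos hx
  have hr : 0 < rad x := Real.sqrt_pos.2 ht
  have e1 : rad x * rad x ^ (-τ - 1) = rad x ^ (-τ) := by
    rw [Real.rpow_sub_one hr.ne']
    field_simp
  have e2 : rad x * rad x ^ (-1 - τ) = rad x ^ (-τ) := by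
    rw [← e1]
    congr 2
    ring
  have dA : DifferentiableAt ℝ D.A (x ⬝ᵥ x) := (D.hA.differentiable (by simp)) _
  have dB : DifferentiableAt ℝ D.B (x ⬝ᵥ x) := (D.hB.differentiable (by simp)) _
  have dC : DifferentiableAt ℝ D.C (x ⬝ᵥ x) := (D.hC.differentiable (by simp)) _
  have g1 := dc_eig h hn hx (D.A (x ⬝ᵥ x) - 1) (D.B (x ⬝ᵥ x) - 1) (D.C (x ⬝ᵥ x) - 1)
    (M * rad x ^ (-τ)) (fun i j => by
      rw [← blk_sub, blk_one, Matrix.sub_apply, Matrix.one_apply]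
      exact (hb i j i).1)
  have g2 := dc_eig h hn hx ((x ⬝ᵥ x) * deriv D.A (x ⬝ᵥ x)) ((x ⬝ᵥ x) * deriv D.B (x ⬝ᵥ x))
    ((x ⬝ᵥ x) * deriv D.C (x ⬝ᵥ x)) ((n * M / 2) * rad x ^ (-τ)) (fun i j => by
      have e := (hD n J x 0 0 0 (D.A (x ⬝ᵥ x)) (D.B (x ⬝ᵥ x)) (D.C (x ⬝ᵥ x))
        (deriv D.A (x ⬝ᵥ x)) (deriv D.B (x ⬝ᵥ x)) (deriv D.C (x ⬝ᵥ x)) h hx).2 i j
      have hs : |∑ k, x k * Dm J x (D.A (x ⬝ᵥ x)) (D.B (x ⬝ᵥ x)) (D.C (x ⬝ᵥ x))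
          (deriv D.A (x ⬝ᵥ x)) (deriv D.B (x ⬝ᵥ x)) (deriv D.C (x ⬝ᵥ x)) (Pi.single k 1) i j| ≤
          n * (M * rad x ^ (-τ)) := by
        refine (Finset.abs_sum_le_sum_abs _ _).trans ?_
        refine (Finset.sum_le_sum (g := fun _ => M * rad x ^ (-τ)) fun k _ => ?_).trans ?_
        · rw [← hJ n J D.A D.B D.C x hx dA dB dC i j k, abs_mul, ← e1]
          calc |x k| * |pd k (fun y => hopf J D.A D.B D.C y i j) x|
              ≤ rad x * (M * rad x ^ (-τ - 1)) :=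
                mul_le_mul (dc_abs_le x k) (hb i j k).2.1 (abs_nonneg _) hr.le
            _ = M * (rad x * rad x ^ (-τ - 1)) := by ring
        · simp only [Finset.sum_const, Finset.card_univ, Fintype.card_fin, nsmul_eq_mul, le_refl]
      rw [e, mul_assoc, abs_mul, abs_two] at hs
      rw [← blk_smul, Matrix.smul_apply, smul_eq_mul]
      linarith)
  have g3 := dc_eig h hn hx (rad x * D.a (x ⬝ᵥ x)) (rad x * D.b (x ⬝ᵥ x))
    (rad x * D.c (x ⬝ᵥ x)) (M * rad x ^ (-τ)) (fun i j => by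
      rw [← blk_smul, Matrix.smul_apply, smul_eq_mul, abs_mul, abs_of_pos hr, ← e2]
      calc rad x * |blk J x (D.a (x ⬝ᵥ x)) (D.b (x ⬝ᵥ x)) (D.c (x ⬝ᵥ x)) i j|
          ≤ rad x * (M * rad x ^ (-1 - τ)) := mul_le_mul_of_nonneg_left (hb i j i).2.2 hr.le
        _ = M * (rad x * rad x ^ (-1 - τ)) := by ring)
  refine ⟨?_, ?_, ?_, ?_, ?_, ?_, ?_⟩
  · linarith [g1.1]
  · linarith [g1.2.1]
  · linarith [g1.2.2]
  · linarith [g2.2.1]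
  · linarith [g2.2.2]
  · linarith [g3.2.1]
  · linarith [g3.2.2]

theorem decay_pf (hJ : JetStmt) (hD : DivStmt) : DecayStmt := by
  intro n J D R τ hn h _ hτ hdec
  obtain ⟨M, hM⟩ := hdec
  have hp : 2 * (((n : ℝ) - 2) / 4) < τ := by linarith
  have key : ∀ᶠ t : ℝ in atTop,
      |D.A t - 1| ≤ (5 * (n : ℝ) ^ 2 * M) * √t ^ (-τ) ∧
      |D.B t - 1| ≤ (5 * (n : ℝ) ^ 2 * M) * √t ^ (-τ) ∧
      |D.C t - 1| ≤ (5 * (n : ℝ) ^ 2 * M) * √t ^ (-τ) ∧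
      |t * deriv D.B t| ≤ (5 * (n : ℝ) ^ 2 * (n * M / 2)) * √t ^ (-τ) ∧
      |t * deriv D.C t| ≤ (5 * (n : ℝ) ^ 2 * (n * M / 2)) * √t ^ (-τ) ∧
      |√t * D.b t| ≤ (5 * (n : ℝ) ^ 2 * M) * √t ^ (-τ) ∧
      |√t * D.c t| ≤ (5 * (n : ℝ) ^ 2 * M) * √t ^ (-τ) := by
    filter_upwards [eventually_gt_atTop (0 : ℝ), eventually_ge_atTop (R ^ 2)] with t ht hR
    let i0 : Fin n := ⟨0, by omega⟩
    let x : Pt n := Pi.single i0 (√t)
    have hxx : x ⬝ᵥ x = t := by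
      simp only [x, single_dotProduct, Pi.single_eq_same]
      exact Real.mul_self_sqrt ht.le
    have hx : x ≠ 0 := by
      intro h0
      rw [h0, dotProduct_zero] at hxx
      exact ht.ne hxx
    have hr : rad x = √t := by rw [rad, hxx]
    have hRx : R ≤ rad x := by
      rw [hr]
      exact Real.le_sqrt_of_sq_le hR
    have := dc_point hJ hD h hn D M τ x hx (fun i j k =>
      ⟨(hM x hRx i j k k).1, (hM x hRx i j k k).2.1, (hM x hRx i j k k).2.2.2.1⟩)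
    rwa [hxx, hr] at this
  refine ⟨dc_squeeze _ τ _ hp _ (key.mono fun t h => h.1),
    dc_squeeze _ τ _ hp _ (key.mono fun t h => h.2.1),
    dc_squeeze _ τ _ hp _ (key.mono fun t h => h.2.2.1),
    dc_squeeze _ τ _ hp _ (key.mono fun t h => h.2.2.2.1),
    dc_squeeze _ τ _ hp _ (key.mono fun t h => h.2.2.2.2.1),
    dc_squeeze _ τ _ hp _ (key.mono fun t h => h.2.2.2.2.2.1),
    dc_squeeze _ τ _ hp _ (key.mono fun t h => h.2.2.2.2.2.2)⟩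

end Vale.Agent.P366
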