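import Mathlib

/-! Initial data sets on the exterior of a ball of `ℝ^n`, in the standard coordinates. -/

namespace Vale.Agent.P366

open scoped Matrix
open MeasureTheory

/-- Points of `ℝ^n`. -/
abbrev Pt (n : ℕ) := Fin n → ℝ

/-- A field of matrices `h_{ij}(x)` on `ℝ^n` (a 2-tensor in coordinates). -/
abbrev Ten (n : ℕ) := Pt n → Matrix (Fin n) (Fin n) ℝ

variable {n : ℕ}

/-- The Euclidean norm `|x|`. -/
noncomputable def rad (x : Pt n) : ℝ := √(x ⬝ᵥ x)

/-- The coordinate derivative `∂_i f`. -/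
noncomputable def pd (i : Fin n) (f : Pt n → ℝ) (x : Pt n) : ℝ :=
  fderiv ℝ f x (Pi.single i 1)

/-- The Christoffel symbol `Γ^k_{ij}` of `g`. -/
noncomputable def chr (g : Ten n) (k i j : Fin n) (x : Pt n) : ℝ :=
  (1 / 2) * ∑ l, (g x)⁻¹ k l *
    (pd i (fun y => g y j l) x + pd j (fun y => g y i l) x - pd l (fun y => g y i j) x)

/-- The Ricci tensor `R_{ij}` of `g`. -/
noncomputable def ric (g : Ten n) (i j : Fin n) (x : Pt n) : ℝ :=
  ∑ k, (pd k (chr g k i j) x - pd j (chr g k i k) x +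
    ∑ l, (chr g k k l x * chr g l i j x - chr g k j l x * chr g l i k x))

/-- The scalar curvature `R_g`. -/
noncomputable def scal (g : Ten n) (x : Pt n) : ℝ :=
  ∑ i, ∑ j, (g x)⁻¹ i j * ric g i j x

/-- The trace `tr_g K`. -/
noncomputable def trg (g K : Ten n) (x : Pt n) : ℝ :=
  ∑ i, ∑ j, (g x)⁻¹ i j * K x i j

/-- The squared norm `|K|_g^2`. -/
noncomputable def nsq (g K : Ten n) (x : Pt n) : ℝ :=
  ∑ i, ∑ j, ∑ k, ∑ l, (g x)⁻¹ i k * (g x)⁻¹ j l * K x i j * K x k l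

/-- The momentum tensor `π = K - (tr_g K) g`. -/
noncomputable def mom (g K : Ten n) : Ten n := fun x => K x - trg g K x • g x

/-- The energy density `μ = (R_g + (tr_g K)^2 - |K|_g^2) / 2`. -/
noncomputable def mu (g K : Ten n) (x : Pt n) : ℝ :=
  (scal g x + trg g K x ^ 2 - nsq g K x) / 2

/-- The current `J_j = (div_g π)_j = g^{ik} ∇_i π_{kj}`. -/
noncomputable def cur (g K : Ten n) (j : Fin n) (x : Pt n) : ℝ :=
  ∑ i, ∑ k, (g x)⁻¹ i k * (pd i (fun y => mom g K y k j) x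
    - ∑ l, chr g l i k x * mom g K x l j - ∑ l, chr g l i j x * mom g K x k l)

/-- The norm `|J|_g`. -/
noncomputable def curNorm (g K : Ten n) (x : Pt n) : ℝ :=
  √(∑ i, ∑ j, (g x)⁻¹ i j * cur g K i x * cur g K j x)

/-- `|∇f|_g` for `f = |x|^2 / 2`. -/
noncomputable def gradNorm (g : Ten n) (x : Pt n) : ℝ :=
  √(∑ i, ∑ j, (g x)⁻¹ i j * x i * x j)

/-- The outward `g`-unit normal `ν^i` of the coordinate sphere through `x`. -/
noncomputable def nu (g : Ten n) (x : Pt n) (i : Fin n) : ℝ :=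
  (∑ j, (g x)⁻¹ i j * x j) / gradNorm g x

/-- The mean curvature `H = div_S ν` of the coordinate sphere `S` through `x`: the trace on `S` of
the Hessian of `f = |x|^2 / 2`, divided by `|∇f|_g`. -/
noncomputable def meanCurv (g : Ten n) (x : Pt n) : ℝ :=
  (∑ i, ∑ j, ((g x)⁻¹ i j - nu g x i * nu g x j) *
    ((if i = j then 1 else 0) - ∑ k, chr g k i j x * x k)) / gradNorm g x

/-- The trace `tr_S K` on the coordinate sphere through `x`. -/
noncomputable def trS (g K : Ten n) (x : Pt n) : ℝ :=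
  ∑ i, ∑ j, ((g x)⁻¹ i j - nu g x i * nu g x j) * K x i j

/-- The integral of `F` over the sphere `|x| = r` for the Euclidean area element. -/
noncomputable def sph (r : ℝ) (F : Pt n → ℝ) : ℝ :=
  r ^ (n - 1) * ∫ w : Metric.sphere (0 : EuclideanSpace ℝ (Fin n)) 1,
    F (r • w.1.ofLp) ∂(volume : Measure (EuclideanSpace ℝ (Fin n))).toSphere

/-- The area `ω_{n-1}` of the unit sphere of `ℝ^n`. -/
noncomputable def omega (n : ℕ) : ℝ := sph (n := n) 1 fun _ => 1

/-- The constant `c_n`. -/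
noncomputable def cn (n : ℕ) : ℝ := 1 / (2 * ((n : ℝ) - 1) * omega n)

/-- The `g`-area of the coordinate sphere `|x| = r`. -/
noncomputable def area (g : Ten n) (r : ℝ) : ℝ :=
  sph r fun x => √((g x).det * ∑ i, ∑ j, (g x)⁻¹ i j * (x i / r) * (x j / r))

/-- The ADM energy flux through `|x| = r`. -/
noncomputable def energyFlux (g : Ten n) (r : ℝ) : ℝ :=
  cn n * sph r fun x =>
    ∑ i, ∑ j, (pd j (fun y => g y i j) x - pd i (fun y => g y j j) x) * (x i / r)

/-- The ADM momentum flux through `|x| = r`. -/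
noncomputable def momFlux (g K : Ten n) (i : Fin n) (r : ℝ) : ℝ :=
  2 * cn n * sph r fun x => ∑ j, mom g K x i j * (x j / r)

/-- A quaternionic structure on `ℝ^n`: skew matrices with `I² = J² = K² = -1`, `I J = K`. -/
def IsQuat (J : Fin 3 → Matrix (Fin n) (Fin n) ℝ) : Prop :=
  (∀ a, (J a)ᵀ = -J a) ∧ (∀ a, J a * J a = -1) ∧ J 0 * J 1 = J 2

/-- The orthogonal projection on the radial line `ℝ x`. -/
noncomputable def pr0 (x : Pt n) : Matrix (Fin n) (Fin n) ℝ :=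
  (x ⬝ᵥ x)⁻¹ • Matrix.vecMulVec x x

/-- The orthogonal projection on the span of `I x, J x, K x` (tangent to the Hopf fibre). -/
noncomputable def pr1 (J : Fin 3 → Matrix (Fin n) (Fin n) ℝ) (x : Pt n) :
    Matrix (Fin n) (Fin n) ℝ :=
  (x ⬝ᵥ x)⁻¹ • ∑ a, Matrix.vecMulVec (J a *ᵥ x) (J a *ᵥ x)

/-- The symmetric matrix with eigenvalue `A` on the radial line, `B` on the tangent space of the
Hopf fibre and `C` on the horizontal space at `x`. -/
noncomputable def blk (J : Fin 3 → Matrix (Fin n) (Fin n) ℝ) (x : Pt n) (A B C : ℝ) :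
    Matrix (Fin n) (Fin n) ℝ :=
  A • pr0 x + B • pr1 J x + C • (1 - pr0 x - pr1 J x)

/-- The `Sp(m+1) Sp(1)`-invariant symmetric 2-tensor with eigenvalues `A, B, C` at `|x|^2`. -/
noncomputable def hopf (J : Fin 3 → Matrix (Fin n) (Fin n) ℝ) (A B C : ℝ → ℝ) : Ten n :=
  fun x => blk J x (A (x ⬝ᵥ x)) (B (x ⬝ᵥ x)) (C (x ⬝ᵥ x))

/-- Asymptotic flatness of order `τ` on `|x| ≥ R`: `g - δ = O_2(r^{-τ})`, `K = O_1(r^{-1-τ})`. -/
def Decay (g K : Ten n) (R τ : ℝ) : Prop :=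
  ∃ M : ℝ, ∀ x : Pt n, R ≤ rad x → ∀ i j k l,
    |g x i j - (if i = j then 1 else 0)| ≤ M * rad x ^ (-τ) ∧
    |pd k (fun y => g y i j) x| ≤ M * rad x ^ (-τ - 1) ∧
    |pd l (pd k fun y => g y i j) x| ≤ M * rad x ^ (-τ - 2) ∧
    |K x i j| ≤ M * rad x ^ (-1 - τ) ∧
    |pd k (fun y => K y i j) x| ≤ M * rad x ^ (-2 - τ)

end Vale.Agent.P366
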