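import Vale.Agent.P366.Alg

/-! The determinant of a block matrix and a Cauchy-Schwarz inequality. -/

namespace Vale.Agent.P366

open scoped Matrix ContDiff Topology
open Filter Set

theorem det_pf : DetStmt := by
  intro n J x A B C hn h hx hC
  have ht := (dot_pos hx).ne'
  let u : Option (Fin 3) → Pt n := fun o => o.elim x fun a => J a *ᵥ x
  let φ : Option (Fin 3) → ℝ := fun o =>
    o.elim ((A - C) / (x ⬝ᵥ x) / C) fun _ => (B - C) / (x ⬝ᵥ x) / C
  let U : Matrix (Fin n) (Option (Fin 3)) ℝ := Matrix.of fun i o => u o i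
  let V : Matrix (Option (Fin 3)) (Fin n) ℝ := Matrix.of fun o j => φ o * u o j
  have e1 : blk J x A B C = C • (1 + U * V) := by
    rw [blk_eq]
    ext i j
    simp only [Matrix.add_apply, Matrix.smul_apply, Matrix.mul_apply, Matrix.sum_apply,
      Matrix.vecMulVec_apply, smul_eq_mul, Fintype.sum_option, Fin.sum_univ_three, U, V, u, φ,
      Matrix.of_apply, Option.elim]
    field_simp
    ring
  have e2 : 1 + V * U = Matrix.diagonal fun o : Option (Fin 3) => o.elim (A / C) fun _ => B / C := by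
    ext o o'
    have e : (V * U) o o' = φ o * (u o ⬝ᵥ u o') := by
      simp only [Matrix.mul_apply, U, V, Matrix.of_apply, dotProduct, Finset.mul_sum, mul_assoc]
    rw [Matrix.add_apply, e]
    rcases o with _ | a <;> rcases o' with _ | b
    · simp only [Matrix.one_apply_eq, Matrix.diagonal_apply_eq, u, φ, Option.elim]
      field_simp
      ring
    · simp [u, h.dot_self]
    · simp [u, h.self_dot]
    · by_cases hab : a = b
      · subst hab
        simp only [Matrix.one_apply_eq, Matrix.diagonal_apply_eq, u, φ, Option.elim, h.dot_yy,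
          if_true]
        field_simp
        ring
      · simp [u, h.dot_yy, hab]
  obtain ⟨m, rfl⟩ : ∃ m, n = m + 4 := ⟨n - 4, by omega⟩
  rw [e1, Matrix.det_smul, Matrix.det_one_add_mul_comm, e2, Matrix.det_diagonal,
    Fintype.prod_option]
  simp only [Option.elim, Finset.prod_const, Finset.card_univ, Fintype.card_fin,
    Nat.add_sub_cancel]
  field_simp
  ring

theorem cs_pf : CsStmt := by
  intro n J x v A B C h hx hA hB hC
  have ht := dot_pos hx
  have e1 : blk J x A⁻¹ B⁻¹ C⁻¹ =
      blk J x A⁻¹ 0 0 + blk J x 0 √B⁻¹ √C⁻¹ * blk J x 0 √B⁻¹ √C⁻¹ := by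
    rw [blk_mul h hx, blk_add, Real.mul_self_sqrt (by positivity),
      Real.mul_self_sqrt (by positivity)]
    simp
  have e2 : v ⬝ᵥ (blk J x A⁻¹ 0 0 *ᵥ v) = (v ⬝ᵥ x) ^ 2 / ((x ⬝ᵥ x) * A) := by
    rw [blk_mulVec]
    simp only [sub_zero, zero_div, zero_mul, zero_smul, Finset.sum_const_zero, add_zero, zero_add,
      dotProduct_smul, smul_eq_mul, dotProduct_comm x v]
    field_simp
  have e3 : 0 ≤ v ⬝ᵥ ((blk J x 0 √B⁻¹ √C⁻¹ * blk J x 0 √B⁻¹ √C⁻¹) *ᵥ v) := by
    rw [← Matrix.mulVec_mulVec, Matrix.dotProduct_mulVec, ← Matrix.mulVec_transpose, blk_T]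
    exact Finset.sum_nonneg fun i _ => mul_self_nonneg _
  rw [blk_inv h hx hA.ne' hB.ne' hC.ne', sum_mul_mul, e1, Matrix.add_mulVec, dotProduct_add, e2]
  refine Real.le_sqrt_of_sq_le ?_
  rw [div_pow, sq_abs, Real.sq_sqrt (by positivity)]
  exact le_add_of_nonneg_right e3

end Vale.Agent.P366
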