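import Vale.Agent.P366.Stm

/-! Eventual positivity of the two null expansions. -/

namespace Vale.Agent.P366

open scoped Matrix ContDiff Topology
open Filter Set

theorem evPos_div {p : ℝ} (hp : 0 < p) {f : ℝ → ℝ}
    (h : Tendsto (fun t : ℝ => t ^ p * f t) atTop (𝓝 0)) : Tendsto f atTop (𝓝 0) := by
  have h1 : Tendsto (fun t : ℝ => t ^ (-p)) atTop (𝓝 0) := tendsto_rpow_neg_atTop hp
  have h2 := h1.mul h
  rw [mul_zero] at h2
  refine h2.congr' ?_
  filter_upwards [eventually_gt_atTop (0 : ℝ)] with t ht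
  rw [← mul_assoc, ← Real.rpow_add ht, neg_add_cancel, Real.rpow_zero, one_mul]

theorem evPos_one {f : ℝ → ℝ} (h : Tendsto (fun t : ℝ => f t - 1) atTop (𝓝 0)) :
    Tendsto f atTop (𝓝 1) := by
  have h2 := h.add_const 1
  simpa using h2

theorem evPos_pf : EvPosStmt := by
  intro n D hn hD
  obtain ⟨hA, hB, hC, hB', hC', hb, hc⟩ := hD
  have hn' : (4 : ℝ) < n := by exact_mod_cast hn
  have hp : (0 : ℝ) < ((n : ℝ) - 2) / 4 := by linarith
  have hA1 := evPos_one (evPos_div hp hA)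
  have hB1 := evPos_one (evPos_div hp hB)
  have hC1 := evPos_one (evPos_div hp hC)
  have hB2 := evPos_div hp hB'
  have hC2 := evPos_div hp hC'
  have hb2 := evPos_div hp hb
  have hc2 := evPos_div hp hc
  set q : ℝ := (n : ℝ) - 4 with hq
  have hq0 : 0 < q := by linarith
  have hlB : Tendsto (ll D.B) atTop (𝓝 (1 + 0 / 1)) :=
    tendsto_const_nhds.add (hB2.div hB1 one_ne_zero)
  have hlC : Tendsto (ll D.C) atTop (𝓝 (1 + 0 / 1)) :=
    tendsto_const_nhds.add (hC2.div hC1 one_ne_zero)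
  have hh1 : Tendsto (hh q D) atTop (𝓝 (3 * (1 + 0 / 1) + q * (1 + 0 / 1))) :=
    (hlB.const_mul 3).add (hlC.const_mul q)
  have hsA : Tendsto (fun t => √(D.A t)) atTop (𝓝 (√1)) := hA1.sqrt
  rw [Real.sqrt_one] at hsA
  have hH : Tendsto (fun t => hh q D t / √(D.A t)) atTop
      (𝓝 ((3 * (1 + 0 / 1) + q * (1 + 0 / 1)) / 1)) := hh1.div hsA one_ne_zero
  have hP : Tendsto (fun t => 3 * (√t * D.b t / D.B t) + q * (√t * D.c t / D.C t)) atTop
      (𝓝 (3 * (0 / 1) + q * (0 / 1))) :=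
    ((hb2.div hB1 one_ne_zero).const_mul 3).add ((hc2.div hC1 one_ne_zero).const_mul q)
  have h1 := hH.add hP
  have h2 := hH.sub hP
  have e1 : (0 : ℝ) < (3 * (1 + 0 / 1) + q * (1 + 0 / 1)) / 1 + (3 * (0 / 1) + q * (0 / 1)) := by
    have : (3 * (1 + 0 / 1) + q * (1 + 0 / 1)) / 1 + (3 * (0 / 1) + q * (0 / 1)) = 3 + q := by ring
    rw [this]; linarith
  have e2 : (0 : ℝ) < (3 * (1 + 0 / 1) + q * (1 + 0 / 1)) / 1 - (3 * (0 / 1) + q * (0 / 1)) := by
    have : (3 * (1 + 0 / 1) + q * (1 + 0 / 1)) / 1 - (3 * (0 / 1) + q * (0 / 1)) = 3 + q := by ring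
    rw [this]; linarith
  filter_upwards [h1.eventually (lt_mem_nhds e1), h2.eventually (lt_mem_nhds e2),
    eventually_gt_atTop (0 : ℝ)] with t g1 g2 ht
  have hs : 0 < √t := Real.sqrt_pos.2 ht
  have k1 : √t * H1 q D t = hh q D t / √(D.A t) := by
    unfold H1
    rw [Real.sqrt_mul ht.le, ← mul_div_assoc, mul_div_mul_left _ _ hs.ne']
  have k2 : √t * PP q D t = 3 * (√t * D.b t / D.B t) + q * (√t * D.c t / D.C t) := by
    unfold PP
    ring
  constructor
  · have : 0 < √t * (H1 q D t + PP q D t) := by rw [mul_add, k1, k2]; exact g1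
    exact (mul_pos_iff_of_pos_left hs).1 this
  · have : 0 < √t * (H1 q D t - PP q D t) := by rw [mul_sub, k1, k2]; exact g2
    exact (mul_pos_iff_of_pos_left hs).1 this

end Vale.Agent.P366
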