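import Vale.Agent.P366.Alg

/-! The fluxes and the area for the ansatz. -/

namespace Vale.Agent.P366

open scoped Matrix ContDiff Topology
open Filter Set

namespace FluxA

variable {n : ℕ} {J : Fin 3 → Matrix (Fin n) (Fin n) ℝ}

theorem rad_sq {x : Pt n} {r : ℝ} (hr : 0 < r) (h : rad x = r) : x ≠ 0 ∧ x ⬝ᵥ x = r ^ 2 := by
  have h0 : 0 < x ⬝ᵥ x := Real.sqrt_pos.1 (lt_of_lt_of_eq hr h.symm)
  refine ⟨fun q => ?_, ?_⟩
  · rw [q, dotProduct_zero] at h0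
    exact lt_irrefl _ h0
  · rw [← h, rad, Real.sq_sqrt h0.le]

theorem dens (hJ : JetStmt) (hD : DivStmt) (hq : IsQuat J) (D : Dat) {x : Pt n} (hx : x ≠ 0)
    (r : ℝ) :
    ∑ i, ∑ j, (pd j (fun y => hopf J D.A D.B D.C y i j) x -
      pd i (fun y => hopf J D.A D.B D.C y j j) x) * (x i / r) =
      F1 ((n : ℝ) - 4) D (x ⬝ᵥ x) / r := by
  have hj := hJ n J D.A D.B D.C x hx (D.hA.differentiable (by simp) _)
    (D.hB.differentiable (by simp) _) (D.hC.differentiable (by simp) _)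
  obtain ⟨h1, h2⟩ := hD n J x 1 1 1 (D.A (x ⬝ᵥ x)) (D.B (x ⬝ᵥ x)) (D.C (x ⬝ᵥ x))
    (deriv D.A (x ⬝ᵥ x)) (deriv D.B (x ⬝ᵥ x)) (deriv D.C (x ⬝ᵥ x)) hq hx
  have hs : ∀ i j, (fun y => hopf J D.A D.B D.C y i j) = fun y => hopf J D.A D.B D.C y j i :=
    fun i j => funext fun y => blk_symm J y _ _ _ i j
  have h3 := blk_trace hq hx (deriv D.A (x ⬝ᵥ x)) (deriv D.B (x ⬝ᵥ x)) (deriv D.C (x ⬝ᵥ x))
  generalize Dm J x (D.A (x ⬝ᵥ x)) (D.B (x ⬝ᵥ x)) (D.C (x ⬝ᵥ x)) (deriv D.A (x ⬝ᵥ x))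
    (deriv D.B (x ⬝ᵥ x)) (deriv D.C (x ⬝ᵥ x)) = M at hj h1 h2
  have e1 : ∑ i, ∑ j, M (Pi.single j 1) j i * x i =
      ((n : ℝ) - 4) * (D.A (x ⬝ᵥ x) - D.C (x ⬝ᵥ x)) * 1 + 3 * (D.A (x ⬝ᵥ x) - D.B (x ⬝ᵥ x)) * 1 +
        2 * (x ⬝ᵥ x) * deriv D.A (x ⬝ᵥ x) * 1 := by
    rw [← h1, Finset.sum_comm, blk_one]
    refine Finset.sum_congr rfl fun i _ => Eq.symm ?_
    rw [Finset.sum_eq_single i (fun k _ hk => Finset.sum_eq_zero fun j _ => by
      rw [Matrix.one_apply_ne hk.symm, zero_mul, zero_mul]) (fun q => absurd (Finset.mem_univ i) q)]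
    exact Finset.sum_congr rfl fun j _ => by rw [Matrix.one_apply_eq, one_mul]
  have e2 : ∑ i, ∑ j, M (Pi.single i 1) j j * x i = 2 * (x ⬝ᵥ x) *
      (deriv D.A (x ⬝ᵥ x) + 3 * deriv D.B (x ⬝ᵥ x) + ((n : ℝ) - 4) * deriv D.C (x ⬝ᵥ x)) := by
    rw [← h3, Finset.sum_comm, Matrix.trace, Finset.mul_sum]
    refine Finset.sum_congr rfl fun j _ => ?_
    rw [Matrix.diag_apply, ← h2]
    exact Finset.sum_congr rfl fun i _ => mul_comm _ _
  have e3 : ∑ i, ∑ j, (pd j (fun y => hopf J D.A D.B D.C y i j) x -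
      pd i (fun y => hopf J D.A D.B D.C y j j) x) * (x i / r) =
      ((∑ i, ∑ j, M (Pi.single j 1) j i * x i) - ∑ i, ∑ j, M (Pi.single i 1) j j * x i) / r := by
    rw [← Finset.sum_sub_distrib, Finset.sum_div]
    refine Finset.sum_congr rfl fun i _ => ?_
    rw [← Finset.sum_sub_distrib, Finset.sum_div]
    refine Finset.sum_congr rfl fun j _ => ?_
    rw [hs i j, hj, hj]
    ring
  rw [e3, e1, e2, F1]
  ring

end FluxA

open FluxA in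
theorem flux_pf (hS : SphStmt) (hJ : JetStmt) (hK : KStmt) (hD : DivStmt) (hdet : DetStmt) :
    FluxStmt := by
  intro n J D r hn hq hr hA hB hC
  obtain ⟨hω, hs⟩ := hS n (by omega)
  have hn1 : (0 : ℝ) < (n : ℝ) - 1 := by
    have : (4 : ℝ) < n := by exact_mod_cast hn
    linarith
  refine ⟨?_, fun i => ?_, ?_⟩
  · rw [energyFlux, (hs r _ (F1 ((n : ℝ) - 4) D (r ^ 2) / r) hr).1 fun x hx => by
      rw [dens hJ hD hq D (rad_sq hr hx).1, (rad_sq hr hx).2], cn,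
      show n - 1 = n - 2 + 1 by omega, pow_succ]
    field_simp
  · rw [momFlux, (hs r _ (-(D.A (r ^ 2) * PP ((n : ℝ) - 4) D (r ^ 2)) / r) hr).2 i fun x hx => ?_,
      mul_zero]
    obtain ⟨h0, h1⟩ := rad_sq hr hx
    have h2 := (hK n J D x hq h0 (h1 ▸ hA) (h1 ▸ hB.ne') (h1 ▸ hC.ne')).2.2.2 i
    rw [h1] at h2
    rw [div_mul_eq_mul_div, ← h2, Finset.sum_div]
    exact Finset.sum_congr rfl fun j _ => (mul_div_assoc _ _ _).symm
  · rw [area, (hs r _ √(D.B (r ^ 2) ^ 3 * D.C (r ^ 2) ^ (n - 4)) hr).1 fun x hx => ?_, ar1,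
      Real.sqrt_sq hr.le]
    · field_simp
    obtain ⟨h0, h1⟩ := rad_sq hr hx
    have h2 : ∑ i, ∑ j, (hopf J D.A D.B D.C x)⁻¹ i j * (x i / r) * (x j / r) =
        (∑ i, ∑ j, (hopf J D.A D.B D.C x)⁻¹ i j * x i * x j) / r ^ 2 := by
      rw [Finset.sum_div]
      refine Finset.sum_congr rfl fun i _ => ?_
      rw [Finset.sum_div]
      refine Finset.sum_congr rfl fun j _ => ?_
      ring
    rw [h2, sum_mul_mul, hopf, h1, blk_inv hq h0 hA.ne' hB.ne' hC.ne', blk_x hq h0,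
      hdet n J x _ _ _ hn hq h0 hC.ne', dotProduct_smul, h1, smul_eq_mul]
    refine congrArg Real.sqrt ?_
    field_simp

end Vale.Agent.P366
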