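import Vale.Agent.P366.Alg

/-! Contractions of the Christoffel symbols and of the first jet with the position vector. -/

namespace Vale.Agent.P366

open scoped Matrix
open Matrix

namespace GxDivAux

variable {n : ℕ} {J : Fin 3 → Matrix (Fin n) (Fin n) ℝ}

theorem dot_blk (h : IsQuat J) {x : Pt n} (hx : x ≠ 0) (A B C : ℝ) (u : Pt n) :
    (blk J x A B C *ᵥ u) ⬝ᵥ x = A * (x ⬝ᵥ u) := by
  rw [dotProduct_comm, Matrix.dotProduct_mulVec, ← Matrix.mulVec_transpose, blk_T, blk_x h hx,
    smul_dotProduct, smul_eq_mul]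

theorem tm_x (h : IsQuat J) {x : Pt n} (hx : x ≠ 0) (A B C A' B' C' : ℝ) (u : Pt n) :
    Tm J x A B C A' B' C' u *ᵥ x = (x ⬝ᵥ x) • (blk J x A' B' C' *ᵥ u) := by
  have ht := (dot_pos hx).ne'
  simp only [Tm, Matrix.add_mulVec, Matrix.sub_mulVec, Matrix.smul_mulVec, Fin.sum_univ_three,
    Matrix.vecMulVec_mulVec, op_smul_eq_smul, h.self_dot, blk_x h hx, dot_blk h hx, zero_smul,
    dotProduct_comm u x]
  simp only [blk_mulVec, Fin.sum_univ_three]
  match_scalars <;> field_simp <;> ring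

theorem dm_x (h : IsQuat J) {x : Pt n} (hx : x ≠ 0) (A B C A' B' C' : ℝ) (u : Pt n) :
    Dm J x A B C A' B' C' u *ᵥ x = blk J x (2 * (x ⬝ᵥ x) * A') (A - B) (A - C) *ᵥ u := by
  have ht := (dot_pos hx).ne'
  have e : ∀ a, (J a *ᵥ u) ⬝ᵥ x = -((J a *ᵥ x) ⬝ᵥ u) := fun a => by
    rw [h.skew, dotProduct_comm]
  simp only [Dm, Matrix.add_mulVec, Matrix.smul_mulVec, Fin.sum_univ_three,
    Matrix.vecMulVec_mulVec, op_smul_eq_smul, h.self_dot, blk_x h hx, zero_smul,
    dotProduct_comm u x, e]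
  simp only [blk_mulVec, Fin.sum_univ_three]
  match_scalars <;> field_simp <;> ring

/-- `Dm` as a linear map. -/
noncomputable def DL (J : Fin 3 → Matrix (Fin n) (Fin n) ℝ) (x : Pt n) (A B C A' B' C' : ℝ) :
    Pt n →ₗ[ℝ] Matrix (Fin n) (Fin n) ℝ where
  toFun := Dm J x A B C A' B' C'
  map_add' u v := by
    simp only [Dm, Fin.sum_univ_three, dotProduct_add, Matrix.mulVec_add, Matrix.add_vecMulVec,
      Matrix.vecMulVec_add]
    module
  map_smul' c u := by
    simp only [Dm, Fin.sum_univ_three, dotProduct_smul, Matrix.mulVec_smul, Matrix.smul_vecMulVec,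
      Matrix.vecMulVec_smul, RingHom.id_apply, smul_eq_mul]
    module

theorem dm_self {x : Pt n} (hx : x ≠ 0) (A B C A' B' C' : ℝ) :
    Dm J x A B C A' B' C' x = (2 * (x ⬝ᵥ x)) • blk J x A' B' C' := by
  have ht := (dot_pos hx).ne'
  simp only [Dm, blk_eq, Fin.sum_univ_three]
  match_scalars <;> field_simp <;> ring

end GxDivAux

open GxDivAux

theorem gx_pf : GxStmt := by
  intro n J x A B C A' B' C' h hx hA hB hC k i
  have e : Gam J x A B C A' B' C' (Pi.single i 1) *ᵥ x =
      (x ⬝ᵥ x) • (blk J x (A' / A) (B' / B) (C' / C) *ᵥ Pi.single i 1) := by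
    rw [Gam, ← Matrix.mulVec_mulVec, tm_x h hx, Matrix.mulVec_smul, Matrix.mulVec_mulVec,
      blk_mul h hx, inv_mul_eq_div, inv_mul_eq_div, inv_mul_eq_div]
  have e2 := congrFun e k
  simpa [Matrix.mulVec, dotProduct, Pi.single_apply] using e2

theorem div_pf : DivStmt := by
  intro n J x α β γ A B C A' B' C' h hx
  constructor
  · have e : ∀ i k, ∑ j, blk J x α β γ i k * Dm J x A B C A' B' C' (Pi.single i 1) k j * x j =
        blk J x α β γ i k * blk J x (2 * (x ⬝ᵥ x) * A') (A - B) (A - C) i k := by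
      intro i k
      have e2 := congrFun (dm_x h hx A B C A' B' C' (Pi.single i 1)) k
      rw [Matrix.mulVec_single_one, Matrix.col_apply, blk_symm] at e2
      rw [← e2]
      simp only [Matrix.mulVec, dotProduct, Finset.mul_sum, mul_assoc]
    simp only [e]
    rw [sum_mul_trace, blk_T, blk_mul h hx, blk_trace h hx]
    ring
  · intro i j
    have e : Dm J x A B C A' B' C' x = ∑ k, x k • Dm J x A B C A' B' C' (Pi.single k 1) := by
      change DL J x A B C A' B' C' x = ∑ k, x k • DL J x A B C A' B' C' (Pi.single k 1)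
      simp only [← map_smul, ← map_sum]
      rw [← pi_eq_sum_univ' x]
    have e2 := congrFun (congrFun (e.symm.trans (dm_self hx A B C A' B' C')) i) j
    simpa [Matrix.sum_apply] using e2

end Vale.Agent.P366
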