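import Vale.Agent.P366.Alg

/-! Traces of `K` and the mean curvature for the ansatz. -/

namespace Vale.Agent.P366

open scoped Matrix ContDiff Topology
open Filter Set

variable {n : ℕ} {J : Fin 3 → Matrix (Fin n) (Fin n) ℝ}

theorem kh_nsq (G K : Matrix (Fin n) (Fin n) ℝ) :
    ∑ i, ∑ j, ∑ k, ∑ l, G i k * G j l * K i j * K k l = (Kᵀ * (G * K * Gᵀ)).trace := by
  rw [← sum_mul_trace]
  refine Finset.sum_congr rfl fun i _ => Finset.sum_congr rfl fun j _ => ?_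
  simp only [Matrix.mul_apply, Matrix.transpose_apply, Finset.sum_mul, Finset.mul_sum]
  rw [Finset.sum_comm]
  exact Finset.sum_congr rfl fun k _ => Finset.sum_congr rfl fun l _ => by ring

theorem kh_row (h : IsQuat J) {x : Pt n} (hx : x ≠ 0) (A B C : ℝ) (i : Fin n) :
    ∑ j, blk J x A B C i j * x j = A * x i := by
  have := congrFun (blk_x h hx A B C) i
  simpa [Matrix.mulVec, dotProduct] using this

theorem kh_grad (h : IsQuat J) {x : Pt n} (hx : x ≠ 0) (g : Ten n) {A B C : ℝ}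
    (hg : (g x)⁻¹ = blk J x A⁻¹ B⁻¹ C⁻¹) : gradNorm g x = √(A⁻¹ * (x ⬝ᵥ x)) := by
  unfold gradNorm
  rw [hg, sum_mul_mul, blk_x h hx, dotProduct_smul, smul_eq_mul]

theorem kh_nu (h : IsQuat J) {x : Pt n} (hx : x ≠ 0) (g : Ten n) {A B C : ℝ} (hA : 0 < A)
    (hg : (g x)⁻¹ = blk J x A⁻¹ B⁻¹ C⁻¹) (i j : Fin n) :
    nu g x i * nu g x j = (A * (x ⬝ᵥ x))⁻¹ * (x i * x j) := by
  have ht := dot_pos hx
  unfold nu
  rw [kh_grad h hx g hg, hg, kh_row h hx, kh_row h hx, div_mul_div_comm,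
    Real.mul_self_sqrt (by positivity)]
  field_simp

theorem kh_proj (h : IsQuat J) {x : Pt n} (hx : x ≠ 0) (g : Ten n) {A B C : ℝ} (hA : 0 < A)
    (hg : (g x)⁻¹ = blk J x A⁻¹ B⁻¹ C⁻¹) (i j : Fin n) :
    (g x)⁻¹ i j - nu g x i * nu g x j = blk J x 0 B⁻¹ C⁻¹ i j := by
  have ht := dot_pos hx
  rw [kh_nu h hx g hA hg, hg]
  simp only [blk, pr0, Matrix.add_apply, Matrix.smul_apply, Matrix.vecMulVec_apply, smul_eq_mul]
  field_simp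
  ring

theorem k_pf : KStmt := by
  intro n J D x h hx hA hB hC
  have hg : (hopf J D.A D.B D.C x)⁻¹ =
      blk J x (D.A (x ⬝ᵥ x))⁻¹ (D.B (x ⬝ᵥ x))⁻¹ (D.C (x ⬝ᵥ x))⁻¹ := blk_inv h hx hA.ne' hB hC
  have hK : hopf J D.a D.b D.c x = blk J x (D.a (x ⬝ᵥ x)) (D.b (x ⬝ᵥ x)) (D.c (x ⬝ᵥ x)) := rfl
  have hG : hopf J D.A D.B D.C x = blk J x (D.A (x ⬝ᵥ x)) (D.B (x ⬝ᵥ x)) (D.C (x ⬝ᵥ x)) := rfl
  have h1 : trg (hopf J D.A D.B D.C) (hopf J D.a D.b D.c) x =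
      D.a (x ⬝ᵥ x) / D.A (x ⬝ᵥ x) + PP ((n : ℝ) - 4) D (x ⬝ᵥ x) := by
    unfold trg PP
    rw [hg, hK, sum_mul_trace, blk_T, blk_mul h hx, blk_trace h hx]
    ring
  refine ⟨h1, ?_, ?_, fun i => ?_⟩
  · unfold nsq
    rw [hg, hK, kh_nsq, blk_T, blk_T, blk_mul h hx, blk_mul h hx, blk_mul h hx, blk_trace h hx]
    ring
  · unfold trS PP
    simp only [kh_proj h hx _ hA hg]
    rw [hK, sum_mul_trace, blk_T, blk_mul h hx, blk_trace h hx]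
    ring
  · unfold mom
    rw [h1, hK, hG, blk_smul, blk_sub, kh_row h hx]
    have := hA.ne'
    field_simp
    ring

theorem h_pf (hC : ChrStmt) (hV : VStmt) (hX : GxStmt) : HStmt := by
  intro n J D x h hx hA hB hC'
  have ht := dot_pos hx
  have hg : (hopf J D.A D.B D.C x)⁻¹ =
      blk J x (D.A (x ⬝ᵥ x))⁻¹ (D.B (x ⬝ᵥ x))⁻¹ (D.C (x ⬝ᵥ x))⁻¹ := blk_inv h hx hA.ne' hB hC'
  have hc := hC n J D x h hx hA.ne' hB hC'
  have hv := hV n J x _ _ _ (deriv D.A (x ⬝ᵥ x)) (deriv D.B (x ⬝ᵥ x)) (deriv D.C (x ⬝ᵥ x)) h hx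
    hA.ne' hB hC'
  have hxx := hX n J x _ _ _ (deriv D.A (x ⬝ᵥ x)) (deriv D.B (x ⬝ᵥ x)) (deriv D.C (x ⬝ᵥ x)) h hx
    hA.ne' hB hC'
  simp only [← hc] at hv hxx
  generalize hΓ : chr (hopf J D.A D.B D.C) = Γ at hv hxx
  have e1 : ∑ i, ∑ j, ((hopf J D.A D.B D.C x)⁻¹ i j -
      nu (hopf J D.A D.B D.C) x i * nu (hopf J D.A D.B D.C) x j) * (if i = j then 1 else 0) =
      3 * (D.B (x ⬝ᵥ x))⁻¹ + ((n : ℝ) - 4) * (D.C (x ⬝ᵥ x))⁻¹ := by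
    simp only [kh_proj h hx _ hA hg, mul_ite, mul_one, mul_zero, Finset.sum_ite_eq,
      Finset.mem_univ, if_true]
    have := blk_trace h hx 0 (D.B (x ⬝ᵥ x))⁻¹ (D.C (x ⬝ᵥ x))⁻¹
    rw [zero_add] at this
    exact this
  have e2 : ∑ i, ∑ j, (hopf J D.A D.B D.C x)⁻¹ i j * ∑ k, Γ k i j x * x k =
      vv ((n : ℝ) - 4) (x ⬝ᵥ x) (D.A (x ⬝ᵥ x)) (D.B (x ⬝ᵥ x)) (D.C (x ⬝ᵥ x))
        (deriv D.A (x ⬝ᵥ x)) (deriv D.B (x ⬝ᵥ x)) (deriv D.C (x ⬝ᵥ x)) * (x ⬝ᵥ x) := by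
    rw [hg]
    have : ∑ i, ∑ j, blk J x (D.A (x ⬝ᵥ x))⁻¹ (D.B (x ⬝ᵥ x))⁻¹ (D.C (x ⬝ᵥ x))⁻¹ i j *
        ∑ k, Γ k i j x * x k = ∑ k, (∑ i, ∑ j, blk J x (D.A (x ⬝ᵥ x))⁻¹ (D.B (x ⬝ᵥ x))⁻¹
          (D.C (x ⬝ᵥ x))⁻¹ i j * Γ k i j x) * x k := by
      simp only [Finset.sum_mul, Finset.mul_sum]
      rw [Finset.sum_comm (γ := Fin n) (s := Finset.univ) (t := Finset.univ)
        (f := fun k i => ∑ j, blk J x (D.A (x ⬝ᵥ x))⁻¹ (D.B (x ⬝ᵥ x))⁻¹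
          (D.C (x ⬝ᵥ x))⁻¹ i j * Γ k i j x * x k)]
      refine Finset.sum_congr rfl fun i _ => ?_
      rw [Finset.sum_comm]
      exact Finset.sum_congr rfl fun k _ => Finset.sum_congr rfl fun l _ => by ring
    rw [this]
    simp only [hv, mul_assoc, ← Finset.mul_sum]
    rfl
  have e3 : ∑ i, ∑ j, (nu (hopf J D.A D.B D.C) x i * nu (hopf J D.A D.B D.C) x j) *
      ∑ k, Γ k i j x * x k = (D.A (x ⬝ᵥ x) * (x ⬝ᵥ x))⁻¹ * ((x ⬝ᵥ x) *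
        (deriv D.A (x ⬝ᵥ x) / D.A (x ⬝ᵥ x) * (x ⬝ᵥ x))) := by
    simp only [kh_nu h hx _ hA hg, mul_assoc, ← Finset.mul_sum]
    congr 1
    have : ∑ i, x i * ∑ j, x j * ∑ k, Γ k i j x * x k =
        ∑ k, ∑ i, (∑ j, Γ k i j x * x j) * x k * x i := by
      rw [Finset.sum_comm]
      refine Finset.sum_congr rfl fun i _ => ?_
      simp only [Finset.sum_mul, Finset.mul_sum]
      rw [Finset.sum_comm]
      exact Finset.sum_congr rfl fun k _ => Finset.sum_congr rfl fun l _ => by ring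
    rw [this]
    simp only [hxx, mul_assoc, ← Finset.mul_sum]
    congr 1
    have e := sum_mul_mul (blk J x (deriv D.A (x ⬝ᵥ x) / D.A (x ⬝ᵥ x))
      (deriv D.B (x ⬝ᵥ x) / D.B (x ⬝ᵥ x)) (deriv D.C (x ⬝ᵥ x) / D.C (x ⬝ᵥ x))) x x
    rw [blk_x h hx, dotProduct_smul, smul_eq_mul] at e
    rw [← e]
    exact Finset.sum_congr rfl fun k _ => Finset.sum_congr rfl fun l _ => by ring
  unfold meanCurv H1
  rw [hΓ, kh_grad h hx _ hg]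
  simp only [mul_sub, Finset.sum_sub_distrib]
  rw [e1]
  simp only [sub_mul, Finset.sum_sub_distrib]
  rw [e2, e3]
  have hs : √((x ⬝ᵥ x) * D.A (x ⬝ᵥ x)) = D.A (x ⬝ᵥ x) * √((D.A (x ⬝ᵥ x))⁻¹ * (x ⬝ᵥ x)) := by
    rw [Real.sqrt_eq_iff_mul_self_eq (by positivity) (by positivity), mul_mul_mul_comm,
      Real.mul_self_sqrt (by positivity)]
    field_simp
  rw [hs, ← div_div]
  congr 1
  unfold vv hh ll
  have := hA.ne'
  field_simp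
  ring

end Vale.Agent.P366
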