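import Vale.Agent.P366.Stm

/-! The limit of the mass at infinity. -/

namespace Vale.Agent.P366

open scoped Matrix ContDiff Topology
open Filter Set

namespace LimAux

theorem to_zero {T f : ℝ → ℝ} (hT : Tendsto T atTop atTop)
    (h : Tendsto (fun t => T t * f t) atTop (𝓝 0)) : Tendsto f atTop (𝓝 0) := by
  have h1 := h.mul hT.inv_tendsto_atTop
  rw [zero_mul] at h1
  refine h1.congr' ?_
  filter_upwards [hT.eventually_gt_atTop 0] with t ht
  simp only [Pi.inv_apply]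
  field_simp

theorem to_one {T f : ℝ → ℝ} (hT : Tendsto T atTop atTop)
    (h : Tendsto (fun t => T t * (f t - 1)) atTop (𝓝 0)) : Tendsto f atTop (𝓝 1) := by
  have h1 := (to_zero hT h).add_const 1
  simpa using h1

theorem sq_one {f : ℝ → ℝ} (h : Tendsto f atTop (𝓝 1)) :
    Tendsto (fun t => √(f t)) atTop (𝓝 1) := by
  simpa using h.sqrt

theorem sq_dec {T f : ℝ → ℝ} (hT : Tendsto T atTop atTop)
    (h : Tendsto (fun t => T t * (f t - 1)) atTop (𝓝 0)) :
    Tendsto (fun t => T t * (√(f t) - 1)) atTop (𝓝 0) := by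
  have h1 := to_one hT h
  have h2 := h.div ((sq_one h1).add_const 1) (by norm_num)
  rw [zero_div] at h2
  refine h2.congr' ?_
  filter_upwards [h1.eventually_const_lt (show (0 : ℝ) < 1 by norm_num)] with t ht
  have h3 : 0 < √(f t) := Real.sqrt_pos.2 ht
  have h4 : f t - 1 = (√(f t) - 1) * (√(f t) + 1) := by
    have := Real.mul_self_sqrt ht.le
    linear_combination -this
  simp only [Pi.div_apply]
  rw [h4]
  field_simp

/-- The second order remainder. -/
noncomputable def rem (q x y z u v a b C : ℝ) : ℝ :=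
  (q + 6) / 2 * y ^ 2 * (b + 2) / (2 * b) + q / 2 * (-(y * z) / C - y ^ 2 / 2 + z ^ 2 / C)
    - (q + 3) * x ^ 2 * (a + 2) / (2 * a) + 3 * u * (y * (b + 1) * a + x) / (b ^ 2 * a)
    + q * v * (z * a + x) / (C * a)

theorem rem_eq (q T a b C β γ : ℝ) (ha : a ≠ 0) (hb : b ≠ 0) (hC : C ≠ 0) :
    T * T * (((q + 6) / 2 / b + q / 2 * b / C) - (3 * (1 + β / b ^ 2) + q * (1 + γ / C)) / a) =
      rem q (T * (a - 1)) (T * (b - 1)) (T * (C - 1)) (T * β) (T * γ) a b C
        + T * T * (q * (a ^ 2 - C) + 3 * (a ^ 2 - b ^ 2) - 2 * (3 * β + q * γ)) / 2 := by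
  unfold rem
  field_simp
  ring

theorem rem_lim (q : ℝ) {x y z u v a b C : ℝ → ℝ} (hx : Tendsto x atTop (𝓝 0))
    (hy : Tendsto y atTop (𝓝 0)) (hz : Tendsto z atTop (𝓝 0)) (hu : Tendsto u atTop (𝓝 0))
    (hv : Tendsto v atTop (𝓝 0)) (ha : Tendsto a atTop (𝓝 1)) (hb : Tendsto b atTop (𝓝 1))
    (hC : Tendsto C atTop (𝓝 1)) :
    Tendsto (fun t => rem q (x t) (y t) (z t) (u t) (v t) (a t) (b t) (C t)) atTop (𝓝 0) := by
  have h1 := (((hy.pow 2).const_mul ((q + 6) / 2)).mul (hb.add_const 2)).div (hb.const_mul 2)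
    (by norm_num)
  have h2 := ((((hy.mul hz).neg.div hC one_ne_zero).sub ((hy.pow 2).div_const 2)).add
    ((hz.pow 2).div hC one_ne_zero)).const_mul (q / 2)
  have h3 := (((hx.pow 2).const_mul (q + 3)).mul (ha.add_const 2)).div (ha.const_mul 2)
    (by norm_num)
  have h4 := ((hu.const_mul 3).mul (((hy.mul (hb.add_const 1)).mul ha).add hx)).div
    ((hb.pow 2).mul ha) (by norm_num)
  have h5 := ((hv.const_mul q).mul ((hz.mul ha).add hx)).div (hC.mul ha) (by norm_num)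
  have h6 := (((h1.add h2).sub h3).add h4).add h5
  simp only [ne_eq, OfNat.ofNat_ne_zero, not_false_eq_true, zero_pow, mul_zero, zero_mul, zero_div,
    neg_zero, sub_zero, add_zero] at h6
  exact h6

theorem tt_eq (n : ℕ) (hn : 4 < n) (t : ℝ) (ht : 0 < t) :
    t ^ (((n : ℝ) - 2) / 4) * t ^ (((n : ℝ) - 2) / 4) = √t ^ (n - 2) := by
  rw [← Real.rpow_add ht, Real.sqrt_eq_rpow, ← Real.rpow_natCast, ← Real.rpow_mul ht.le,
    Nat.cast_sub (by omega)]
  congr 1
  push_cast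
  ring

theorem ar_eq (n : ℕ) (hn : 4 < n) (r S : ℝ) (hr : 0 < r) (hS : 0 ≤ S) :
    (r ^ (n - 1) * S) ^ (((n : ℝ) - 2) / ((n : ℝ) - 1)) =
      r ^ (n - 2) * S ^ (((n : ℝ) - 2) / ((n : ℝ) - 1)) := by
  have h1 : (4 : ℝ) < n := by exact_mod_cast hn
  rw [Real.mul_rpow (pow_pos hr _).le hS, ← Real.rpow_natCast r (n - 1), ← Real.rpow_mul hr.le,
    ← Real.rpow_natCast r (n - 2), Nat.cast_sub (by omega), Nat.cast_sub (by omega)]
  congr 2
  have : (n : ℝ) - 1 ≠ 0 := by linarith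
  push_cast
  field_simp

theorem mass_alg (T r S w H P : ℝ) (hr : r ≠ 0) (hw : w ≠ 0) :
    1 / 2 * (T * T * S) * (1 - ((H / r) ^ 2 - P ^ 2) / (w / r) ^ 2) =
      1 / 2 * S * ((T * T * (w - H) * (w + H) + (T * r * P) ^ 2) / w ^ 2) := by
  field_simp
  ring

end LimAux

open LimAux

theorem lim_pf : LimStmt := by
  rintro n D E hn ⟨hA, hB, hC, hB', hC', hb, hc⟩ hE
  have hn' : (4 : ℝ) < n := by exact_mod_cast hn
  have hT : Tendsto (fun t : ℝ => t ^ (((n : ℝ) - 2) / 4)) atTop atTop :=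
    tendsto_rpow_atTop (by linarith)
  set q : ℝ := (n : ℝ) - 4 with hq
  have hq0 : 0 < q := by linarith
  have hd : (n : ℝ) - 1 = q + 3 := by linarith
  have A1 := to_one hT hA
  have B1 := to_one hT hB
  have C1 := to_one hT hC
  have sA := sq_one A1
  have sB := sq_one B1
  have hR := rem_lim q (sq_dec hT hA) (sq_dec hT hB) hC hB' hC' sA sB C1
  have hw : Tendsto (fun t => (q + 6) / 2 / √(D.B t) + q / 2 * √(D.B t) / D.C t) atTop
      (𝓝 (q + 3)) := by
    have := ((tendsto_const_nhds (x := (q + 6) / 2)).div sB one_ne_zero).add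
      ((sB.const_mul (q / 2)).div C1 one_ne_zero)
    rw [show (q + 6) / 2 / 1 + q / 2 * 1 / 1 = q + 3 by ring] at this
    exact this
  have hH : Tendsto (fun t => hh q D t / √(D.A t)) atTop (𝓝 (q + 3)) := by
    have := ((((((to_zero hT hB').div B1 one_ne_zero).const_add 1).const_mul 3).add
      ((((to_zero hT hC').div C1 one_ne_zero).const_add 1).const_mul q)).div sA one_ne_zero)
    rw [show (3 * (1 + 0 / 1) + q * (1 + 0 / 1)) / 1 = q + 3 by ring] at this
    exact this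
  have hP := ((hb.div B1 one_ne_zero).const_mul 3).add ((hc.div C1 one_ne_zero).const_mul q)
  have hS : Tendsto (fun t => √(D.B t ^ 3 * D.C t ^ (n - 4)) ^ (((n : ℝ) - 2) / ((n : ℝ) - 1)))
      atTop (𝓝 1) := by
    have h1 : Tendsto (fun t => D.B t ^ 3 * D.C t ^ (n - 4)) atTop (𝓝 1) := by
      simpa using (B1.pow 3).mul (C1.pow (n - 4))
    simpa using (sq_one h1).rpow_const (p := ((n : ℝ) - 2) / ((n : ℝ) - 1)) (Or.inl one_ne_zero)
  have hq3 : q + 3 ≠ 0 := by linarith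
  have key := (hS.const_mul (1 / 2)).mul ((((hR.add (hE.const_mul (q + 3))).mul (hw.add hH)).add
    (hP.pow 2)).div (hw.pow 2) (pow_ne_zero 2 hq3))
  have hval : 1 / 2 * 1 * (((0 + (q + 3) * E) * (q + 3 + (q + 3)) +
      (3 * (0 / 1) + q * (0 / 1)) ^ 2) / (q + 3) ^ 2) = E := by
    field_simp
    ring
  rw [hval] at key
  refine key.congr' ?_
  have one : (0 : ℝ) < 1 := one_pos
  filter_upwards [eventually_gt_atTop (0 : ℝ), A1.eventually_const_lt one,
    B1.eventually_const_lt one, C1.eventually_const_lt one] with t ht hAt hBt hCt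
  have hr : 0 < √t := Real.sqrt_pos.2 ht
  have ha : 0 < √(D.A t) := Real.sqrt_pos.2 hAt
  have hb0 : 0 < √(D.B t) := Real.sqrt_pos.2 hBt
  have hw0 : 0 < (q + 6) / 2 / √(D.B t) + q / 2 * √(D.B t) / D.C t := by positivity
  have eH : H1 q D t = hh q D t / √(D.A t) / √t := by
    unfold H1
    rw [Real.sqrt_mul ht.le, div_div, mul_comm]
  have eR := rem_eq q (t ^ (((n : ℝ) - 2) / 4)) (√(D.A t)) (√(D.B t)) (D.C t) (t * deriv D.B t)
    (t * deriv D.C t) ha.ne' hb0.ne' hCt.ne'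
  rw [Real.sq_sqrt hAt.le, Real.sq_sqrt hBt.le] at eR
  unfold mass ar1 w1
  rw [ar_eq n hn _ _ hr (Real.sqrt_nonneg _), ← hq, eH]
  simp only [Pi.div_apply]
  rw [← tt_eq n hn t ht, mass_alg _ _ _ _ _ _ hr.ne' hw0.ne']
  have e1 : t ^ (((n : ℝ) - 2) / 4) * t ^ (((n : ℝ) - 2) / 4) *
      ((q + 6) / 2 / √(D.B t) + q / 2 * √(D.B t) / D.C t - hh q D t / √(D.A t)) =
      rem q (t ^ (((n : ℝ) - 2) / 4) * (√(D.A t) - 1)) (t ^ (((n : ℝ) - 2) / 4) * (√(D.B t) - 1))
        (t ^ (((n : ℝ) - 2) / 4) * (D.C t - 1)) (t ^ (((n : ℝ) - 2) / 4) * (t * deriv D.B t))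
        (t ^ (((n : ℝ) - 2) / 4) * (t * deriv D.C t)) (√(D.A t)) (√(D.B t)) (D.C t) +
      (q + 3) * (t ^ (((n : ℝ) - 2) / 4) * t ^ (((n : ℝ) - 2) / 4) * F1 q D t /
        (2 * ((n : ℝ) - 1))) := by
    unfold hh ll
    rw [eR, hd]
    unfold F1
    field_simp
  have e2 : t ^ (((n : ℝ) - 2) / 4) * √t * PP q D t =
      3 * (t ^ (((n : ℝ) - 2) / 4) * (√t * D.b t) / D.B t) +
        q * (t ^ (((n : ℝ) - 2) / 4) * (√t * D.c t) / D.C t) := by
    unfold PP
    ring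
  rw [e1, e2]

end Vale.Agent.P366
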