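import Vale.Agent.P366.Alg

/-! Assembly. -/

namespace Vale.Agent.P366

open scoped Matrix ContDiff Topology
open Filter Set

theorem exists_rad {n : ℕ} (hn : 0 < n) {t : ℝ} (ht : 0 < t) :
    ∃ x : Pt n, x ≠ 0 ∧ x ⬝ᵥ x = t ∧ rad x = √t := by
  have hx : (Pi.single (⟨0, hn⟩ : Fin n) (√t) : Pt n) ⬝ᵥ Pi.single (⟨0, hn⟩ : Fin n) (√t) = t := by
    simp [Real.mul_self_sqrt ht.le]
  refine ⟨Pi.single ⟨0, hn⟩ (√t), fun h => ?_, hx, by rw [rad, hx]⟩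
  rw [h] at hx
  simp at hx
  exact ht.ne hx

theorem main_of (hO : OdeStmt) (hS : ScalStmt) (hK : KStmt) (hH : HStmt) (hC : CurStmt)
    (hCs : CsStmt) (hF : FluxStmt) (hD : DecayStmt)
    (n : ℕ) (hn : 4 < n) (J : Fin 3 → Matrix (Fin n) (Fin n) ℝ) (hJ : IsQuat J) (D : Dat)
    (R τ : ℝ) (hR : 0 < R) (hτ : ((n : ℝ) - 2) / 2 < τ)
    (hpos : ∀ t, R ^ 2 ≤ t → 0 < D.A t ∧ 0 < D.B t ∧ 0 < D.C t)
    (hdec : Decay (hopf J D.A D.B D.C) (hopf J D.a D.b D.c) R τ)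
    (hDEC : ∀ x, R ≤ rad x → curNorm (hopf J D.A D.B D.C) (hopf J D.a D.b D.c) x ≤
      mu (hopf J D.A D.B D.C) (hopf J D.a D.b D.c) x)
    (htrap : ∀ x, rad x = R → meanCurv (hopf J D.A D.B D.C) x +
      trS (hopf J D.A D.B D.C) (hopf J D.a D.b D.c) x ≤ 0)
    (E : ℝ) (P : Pt n) (hE : Tendsto (energyFlux (hopf J D.A D.B D.C)) atTop (𝓝 E))
    (hP : ∀ i, Tendsto (momFlux (hopf J D.A D.B D.C) (hopf J D.a D.b D.c) i) atTop (𝓝 (P i))) :
    rad P ≤ E ∧ ∃ r, R ≤ r ∧ 1 / 2 * (area (hopf J D.A D.B D.C) r / omega n) ^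
      (((n : ℝ) - 2) / ((n : ℝ) - 1)) ≤ √(E ^ 2 - rad P ^ 2) := by
  have hn0 : 0 < n := by omega
  have hR2 : 0 < R ^ 2 := by positivity
  have hfl : ∀ r, R ≤ r → _ := fun r hr =>
    have h2 : R ^ 2 ≤ r ^ 2 := by gcongr
    hF n J D r hn hJ (hR.trans_le hr) (hpos _ h2).1 (hpos _ h2).2.1 (hpos _ h2).2.2
  have hP0 : P = 0 := by
    funext i
    refine tendsto_nhds_unique (hP i) ?_
    refine tendsto_const_nhds.congr' ?_
    filter_upwards [eventually_ge_atTop R] with r hr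
    exact ((hfl r hr).2.1 i).symm
  have hrad0 : rad P = 0 := by simp [hP0, rad]
  have hE' : Tendsto (fun t : ℝ => √t ^ (n - 2) * F1 ((n : ℝ) - 4) D t / (2 * ((n : ℝ) - 1)))
      atTop (𝓝 E) := by
    refine (hE.comp Real.tendsto_sqrt_atTop).congr' ?_
    filter_upwards [eventually_ge_atTop (R ^ 2)] with t ht
    have h1 : R ≤ √t := Real.le_sqrt_of_sq_le ht
    have h2 := (hfl _ h1).1
    rw [Real.sq_sqrt (hR2.le.trans ht)] at h2
    exact h2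
  obtain ⟨t, ht, hle⟩ := hO n D (R ^ 2) E hn hR2 hpos (fun t ht => by
      obtain ⟨x, hx, hxt, hrx⟩ := exists_rad hn0 (hR2.trans ht)
      obtain ⟨hA, hB, hC'⟩ := hpos t ht.le
      rw [← hxt] at hA hB hC'
      have h1 := hDEC x (by rw [hrx]; exact Real.le_sqrt_of_sq_le ht.le)
      have h2 := hCs n J x (fun j => cur (hopf J D.A D.B D.C) (hopf J D.a D.b D.c) j x) _ _ _ hJ hx
        hA hB hC'
      rw [hC n J D x hJ hx hA hB.ne' hC'.ne'] at h2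
      obtain ⟨k1, k2, -, -⟩ := hK n J D x hJ hx hA hB.ne' hC'.ne'
      rw [mu, hS n J D x hJ hx hA.ne' hB.ne' hC'.ne', k1, k2] at h1
      rw [← hxt]
      exact h2.trans h1) (by
      obtain ⟨x, hx, hxt, hrx⟩ := exists_rad hn0 hR2
      obtain ⟨hA, hB, hC'⟩ := hpos _ le_rfl
      rw [← hxt] at hA hB hC'
      have h1 := htrap x (by rw [hrx, Real.sqrt_sq hR.le])
      rw [hH n J D x hJ hx hA hB.ne' hC'.ne', (hK n J D x hJ hx hA hB.ne' hC'.ne').2.2.1,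
        hxt] at h1
      exact h1) (hD n J D R τ hn hJ hR hτ hdec) hE'
  have hE0 : 0 ≤ E := by
    refine le_trans ?_ hle
    have : 0 ≤ ar1 n D t := by unfold ar1; positivity
    positivity
  refine ⟨by rw [hrad0]; exact hE0, √t, Real.le_sqrt_of_sq_le ht, ?_⟩
  rw [(hfl _ (Real.le_sqrt_of_sq_le ht)).2.2, Real.sq_sqrt (hR2.le.trans ht), hrad0]
  simpa [Real.sqrt_sq hE0] using hle

end Vale.Agent.P366
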