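import Vale.Agent.P366.Stm

/-! Monotonicity of the mass function. -/

namespace Vale.Agent.P366

open scoped Matrix ContDiff Topology
open Filter Set

namespace Mono

theorem alg_R {r b L t A B C : ℝ} (q A' h h' x y : ℝ) (hr : 0 < r) (hb : 0 < b) (hL : 0 < L)
    (hC : 0 < C) (et : r ^ 2 = t) (eB : b ^ 2 = B) (eL : L ^ 2 = t * A) :
    (6 / B + q * (q + 8) / C - 3 * q * B / C ^ 2) / t - 4 * h' / A
      + 2 * h * (A + t * A') / (t * A ^ 2) - h ^ 2 / (t * A) - (3 * x ^ 2 + q * y ^ 2) / (t * A) =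
    (6 * (1 / (r * b)) ^ 2 + q * (q + 8) * (1 / (r * b) * (b / (r * C))) - 3 * q * (b / (r * C)) ^ 2)
      - 2 * (2 * t / L * ((h' * L - h * ((1 * A + t * A') / (2 * L))) / L ^ 2)) - (h / L) ^ 2
      - (3 * (x / L) ^ 2 + q * (y / L) ^ 2) := by
  subst et eB
  obtain rfl : A = L ^ 2 / r ^ 2 := by rw [eL]; field_simp
  field_simp
  ring

theorem d_ll {N : ℝ → ℝ} (h : ContDiff ℝ ∞ N) {t : ℝ} (h0 : 0 < N t) :
    DifferentiableAt ℝ (ll N) t :=
  ((differentiableAt_id.mul ((contDiff_infty_iff_deriv.1 h).2.differentiable (by simp) t)).div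
    (h.differentiable (by simp) t) h0.ne').const_add 1

theorem d_ar (m : ℕ) (D : Dat) {t : ℝ} (ht : 0 < t) (hB : 0 < D.B t) (hC : 0 < D.C t) :
    HasDerivAt (ar1 (m + 5) D) (ar1 (m + 5) D t * (hh (m + 1) D t / (2 * t))) t := by
  have dB := (D.hB.differentiable (by simp) t).hasDerivAt
  have dC := (D.hC.differentiable (by simp) t).hasDerivAt
  have p : 0 < D.B t ^ 3 * D.C t ^ (m + 1) := by positivity
  refine (((Real.hasDerivAt_sqrt ht.ne').fun_pow (m + 4)).fun_mul
    (((dB.fun_pow 3).fun_mul (dC.fun_pow (m + 1))).sqrt p.ne')).congr_deriv ?_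
  have e1 := Real.sq_sqrt ht.le
  have e2 := Real.sq_sqrt p.le
  have r0 := Real.sqrt_pos.2 ht
  have s0 := Real.sqrt_pos.2 p
  show _ = √t ^ (m + 4) * √(D.B t ^ 3 * D.C t ^ (m + 1)) * _
  rw [hh, ll, ll, show ((3 : ℕ) : ℝ) * D.B t ^ (3 - 1) * deriv D.B t * D.C t ^ (m + 1) +
      D.B t ^ 3 * (((m + 1 : ℕ) : ℝ) * D.C t ^ (m + 1 - 1) * deriv D.C t) =
      D.B t ^ 3 * D.C t ^ (m + 1) * (3 * deriv D.B t / D.B t + (m + 1) * deriv D.C t / D.C t) by
    push_cast; field_simp; ring]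
  generalize deriv D.B t = B', deriv D.C t = C', D.B t ^ 3 * D.C t ^ (m + 1) = z at *
  generalize √z = S, D.B t = B, D.C t = C at *
  generalize √t = r at *
  subst e1 e2
  rw [show m + 4 - 1 = m + 3 from rfl]
  push_cast
  field_simp
  ring

end Mono

theorem mono_pf (h : MonoAlgStmt) : MonoStmt := by
  intro n D t hn ht hA hB hC hJ h1 h2 hm
  obtain ⟨m, rfl⟩ : ∃ m, n = m + 5 := ⟨n - 5, by omega⟩
  have dar := Mono.d_ar m D ht hB hC
  have ek : (((m + 5 : ℕ) : ℝ) - 2) / (((m + 5 : ℕ) : ℝ) - 1) = (m + 1 + 2) / (m + 1 + 3) := by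
    push_cast
    congr 1 <;> ring
  have eq : ((m + 5 : ℕ) : ℝ) - 4 = m + 1 := by push_cast; ring
  unfold mass at hm ⊢
  rw [eq] at hJ h1 h2
  rw [eq, ek] at hm ⊢
  clear ek eq
  have q0 : (0 : ℝ) < m + 1 := by positivity
  have a0 : 0 < ar1 (m + 5) D t := by unfold ar1; positivity
  generalize (m : ℝ) + 1 = q at *
  generalize ar1 (m + 5) D = ar at *
  have dA := (D.hA.differentiable (by simp) t).hasDerivAt
  have dB := (D.hB.differentiable (by simp) t).hasDerivAt
  have dC := (D.hC.differentiable (by simp) t).hasDerivAt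
  have dh : HasDerivAt (hh q D) (deriv (hh q D) t) t := DifferentiableAt.hasDerivAt
    (((Mono.d_ll D.hB hB).const_mul 3).add ((Mono.d_ll D.hC hC).const_mul q))
  have dP : HasDerivAt (PP q D) (deriv (PP q D) t) t := DifferentiableAt.hasDerivAt
    ((((D.hb.differentiable (by simp) t).div dB.differentiableAt hB.ne').const_mul 3).add
      (((D.hc.differentiable (by simp) t).div dC.differentiableAt hC.ne').const_mul q))
  have r0 := Real.sqrt_pos.2 ht
  have b0 := Real.sqrt_pos.2 hB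
  have L0 := Real.sqrt_pos.2 (mul_pos ht hA)
  have dH : HasDerivAt (H1 q D) _ t :=
    dh.fun_div (((hasDerivAt_id' t).fun_mul dA).sqrt (mul_pos ht hA).ne') L0.ne'
  have db := dB.sqrt hB.ne'
  have dw : HasDerivAt (w1 q D) _ t :=
    (((hasDerivAt_const t ((q + 6) / 2)).fun_div db b0.ne').fun_add
      ((db.const_mul (q / 2)).fun_div dC hC.ne')).fun_div (Real.hasDerivAt_sqrt ht.ne') r0.ne'
  have w0 : 0 < w1 q D t := by unfold w1; positivity
  have dm := ((dar.rpow_const (p := (q + 2) / (q + 3)) (.inl a0.ne')).const_mul (1 / 2)).fun_mul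
    ((((dH.fun_pow 2).fun_sub (dP.fun_pow 2)).fun_div (dw.fun_pow 2) (by positivity)).const_sub 1)
  refine ⟨dm.differentiableAt, ?_⟩
  rw [dm.deriv, ← dH.deriv, ← dw.deriv]
  have p0 := Real.rpow_pos_of_pos a0 ((q + 2) / (q + 3))
  have k := h q (1 / (√t * √(D.B t))) (√(D.B t) / (√t * D.C t)) (ll D.B t / √(t * D.A t))
    (ll D.C t / √(t * D.A t)) (D.a t / D.A t) (D.b t / D.B t) (D.c t / D.C t)
    (2 * t / √(t * D.A t) * deriv (H1 q D) t) (2 * t / √(t * D.A t) * deriv (PP q D) t)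
    (H1 q D t) (PP q D t) (w1 q D t) (2 * t / √(t * D.A t) * deriv (w1 q D) t) _ _ (mu1 q D t)
    (J1 q D t / √(t * D.A t)) q0 (by positivity) (by positivity) (by rw [H1, hh]; ring) rfl
    (by
      rw [mu1, R1, Mono.alg_R q _ _ _ _ _ r0 b0 L0 hC (Real.sq_sqrt ht.le) (Real.sq_sqrt hB.le)
        (Real.sq_sqrt (mul_pos ht hA).le), dH.deriv, H1])
    (by rw [J1, H1]; ring) (by rw [w1]; field_simp)
    (by
      have e1 := Real.sq_sqrt ht.le
      have e2 := Real.sq_sqrt hB.le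
      rw [dw.deriv, ll, ll]
      generalize deriv D.B t = B', deriv D.C t = C', √(t * D.A t) = L, D.C t = C at *
      generalize D.B t = B at *
      generalize √B = b, √t = r at *
      subst e1 e2
      field_simp
      ring) rfl rfl (by rwa [abs_div, abs_of_pos L0]) h1 h2
    ((div_le_one (by positivity)).1 (sub_nonneg.1
      ((mul_nonneg_iff_of_pos_left (by positivity)).1 hm)))
  refine (mul_nonneg_iff_of_pos_left (show 0 < 2 * t / √(t * D.A t) by positivity)).1
    ((mul_nonneg (half_pos p0).le k).trans_eq ?_)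
  rw [Real.rpow_sub_one a0.ne', show hh q D t = H1 q D t * √(t * D.A t) from
    (div_mul_cancel₀ _ L0.ne').symm]
  push_cast
  field_simp
  ring

end Vale.Agent.P366
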