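import Vale.Agent.P366.Stm

/-! The algebraic inequality behind the monotonicity of the mass. -/

namespace Vale.Agent.P366

open scoped Matrix ContDiff Topology
open Filter Set

theorem monoAlg_core {q H u w v x S R E us ws : ℝ} (hq : 0 < q) (hH : 0 < H) (hu : 0 ≤ u)
    (hw : 0 < w) (huw : u ≤ w ^ 2) (hS : u * x ^ 2 ≤ H * S) (hE : 0 ≤ E)
    (hus : (q + 3) * us = (q + 3) * H * R - E - H * u * (q + 4) - 3 * q * S)
    (hws : (q + 3) * ws = -(w * H) + x * v)
    (hR : v ^ 2 ≤ 3 * q * ((q + 2) * w ^ 2 - (q + 3) * R)) :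
    0 ≤ (q + 2) * H * (w ^ 2 - u) * w - (q + 3) * us * w + 2 * u * ((q + 3) * ws) := by
  have e : (q + 2) * H * (w ^ 2 - u) * w - (q + 3) * us * w + 2 * u * ((q + 3) * ws) =
      H * w * ((q + 2) * w ^ 2 - (q + 3) * R) + E * w + 3 * q * S * w + 2 * u * x * v := by
    rw [hus, hws]
    ring
  rw [e]
  generalize (q + 2) * w ^ 2 - (q + 3) * R = T at hR
  have p : 0 < 3 * q * w * H := by positivity
  refine (mul_nonneg_iff_of_pos_left p).1 ?_
  have a1 : 0 ≤ (3 * q * w) ^ 2 * (H * S - u * x ^ 2) :=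
    mul_nonneg (sq_nonneg _) (sub_nonneg.2 hS)
  have a2 : 0 ≤ 3 * q * w * H * (E * w) := by positivity
  have a3 : 0 ≤ u * (3 * q * w * x + v * H) ^ 2 := by positivity
  have a4 : 0 ≤ (w ^ 2 - u) * (v * H) ^ 2 := mul_nonneg (sub_nonneg.2 huw) (sq_nonneg _)
  have a5 : 0 ≤ (H * w) ^ 2 * (3 * q * T - v ^ 2) := mul_nonneg (sq_nonneg _) (sub_nonneg.2 hR)
  have e2 : 3 * q * w * H * (H * w * T + E * w + 3 * q * S * w + 2 * u * x * v) =
      (3 * q * w) ^ 2 * (H * S - u * x ^ 2) + 3 * q * w * H * (E * w) +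
        u * (3 * q * w * x + v * H) ^ 2 + (w ^ 2 - u) * (v * H) ^ 2 +
        (H * w) ^ 2 * (3 * q * T - v ^ 2) := by ring
  rw [e2]
  positivity

theorem monoAlg_pf : MonoAlgStmt := by
  intro q X Y l1 l2 k0 k1 k2 Hs Ps H P w ws u us μ j hq hX hY hH hP hμ hj hw hws hu hus hd hp hm huw
  have hw0 : 0 < w := by
    rw [hw]
    positivity
  have hH0 : 0 < H := by linarith
  have hu0 : 0 ≤ u := by
    have : u = (H + P) * (H - P) := by
      rw [hu]
      ring
    rw [this]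
    positivity
  obtain ⟨d1, d2⟩ := abs_le.1 hd
  have hE : 0 ≤ (q + 3) * ((μ + j) * (H - P) + (μ - j) * (H + P)) :=
    mul_nonneg (by positivity) (add_nonneg (mul_nonneg (by linarith) hm.le)
      (mul_nonneg (by linarith) hp.le))
  have key := monoAlg_core (x := l1 - l2) (v := q * (q + 6) / 2 * (Y - X)) (us := us) (ws := ws)
    (S := ((H - P) * (l1 - l2 + (k1 - k2)) ^ 2 + (H + P) * (l1 - l2 - (k1 - k2)) ^ 2) / 2)
    (R := 6 * X ^ 2 + q * (q + 8) * (X * Y) - 3 * q * Y ^ 2) hq hH0 hu0 hw0 huw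
    (by
      have := sq_nonneg ((H - P) * (l1 - l2 + (k1 - k2)) - (H + P) * (l1 - l2 - (k1 - k2)))
      have e : H * (((H - P) * (l1 - l2 + (k1 - k2)) ^ 2 +
          (H + P) * (l1 - l2 - (k1 - k2)) ^ 2) / 2) - u * (l1 - l2) ^ 2 =
          ((H - P) * (l1 - l2 + (k1 - k2)) - (H + P) * (l1 - l2 - (k1 - k2))) ^ 2 / 4 := by
        rw [hu]
        ring
      linarith) hE
    (by
      rw [hus, hμ, hj, hu, hH, hP]
      ring)
    (by
      rw [hws, hw, hH]
      ring)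
    (by
      have e : 3 * q * ((q + 2) * w ^ 2 -
          (q + 3) * (6 * X ^ 2 + q * (q + 8) * (X * Y) - 3 * q * Y ^ 2)) -
          (q * (q + 6) / 2 * (Y - X)) ^ 2 = q ^ 2 * (q + 3) * (q + 12) / 2 * (X - Y) ^ 2 := by
        rw [hw]
        ring
      have : 0 ≤ q ^ 2 * (q + 3) * (q + 12) / 2 * (X - Y) ^ 2 := by positivity
      linarith)
  have e : (q + 2) / (q + 3) * H * (1 - u / w ^ 2) - us / w ^ 2 + 2 * u * ws / w ^ 3 =
      ((q + 2) * H * (w ^ 2 - u) * w - (q + 3) * us * w + 2 * u * ((q + 3) * ws)) /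
        ((q + 3) * w ^ 3) := by
    field_simp
  rw [e]
  positivity

end Vale.Agent.P366
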