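import Vale.Agent.P366.Stm

/-! The one-variable argument. -/

namespace Vale.Agent.P366

open scoped Matrix ContDiff Topology
open Filter Set

theorem ode_last {m : ℝ → ℝ} {t0 : ℝ} (hm : ContinuousOn m (Ici t0)) (h0 : m t0 ≤ 0)
    (h1 : ∀ᶠ t in atTop, 0 < m t) : ∃ t1, t0 ≤ t1 ∧ m t1 = 0 ∧ ∀ t, t1 < t → 0 < m t := by
  obtain ⟨b, hb⟩ := eventually_atTop.1 h1
  have h2 : IsClosed (Ici t0 ∩ m ⁻¹' Iic 0) :=
    hm.preimage_isClosed_of_isClosed isClosed_Ici isClosed_Iic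
  have h3 : BddAbove (Ici t0 ∩ m ⁻¹' Iic 0) :=
    ⟨b, fun t ht => le_of_not_ge fun h => (hb t h).not_ge ht.2⟩
  have h4 := h2.csSup_mem ⟨t0, self_mem_Ici, h0⟩ h3
  have h5 : ∀ t, sSup (Ici t0 ∩ m ⁻¹' Iic 0) < t → 0 < m t := fun t ht =>
    lt_of_not_ge fun h => ht.not_ge (le_csSup h3 ⟨le_trans h4.1 ht.le, h⟩)
  have h6 : ContinuousWithinAt m (Ioi (sSup (Ici t0 ∩ m ⁻¹' Iic 0))) _ :=
    (hm _ h4.1).mono (Ioi_subset_Ici h4.1)
  exact ⟨_, h4.1, le_antisymm h4.2 (ge_of_tendsto h6.tendsto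
    (eventually_mem_nhdsWithin.mono fun t ht => (h5 t ht).le)), h5⟩

theorem ode_ll {N : ℝ → ℝ} {s : Set ℝ} (hN : ContDiff ℝ ∞ N) (h : ∀ t ∈ s, 0 < N t) :
    ContinuousOn (ll N) s :=
  continuousOn_const.add ((continuous_id.mul (hN.continuous_deriv (by simp))).continuousOn.div
    hN.continuous.continuousOn fun t ht => (h t ht).ne')

theorem ode_pf (hM : MonoStmt) (hC : ContStmt) (hL : LimStmt) (hE : EvPosStmt) : OdeStmt := by
  intro n D t0 E hn h0 hp hd hi ha hF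
  have hq : (0 : ℝ) < (n : ℝ) - 4 := sub_pos.2 (by exact_mod_cast hn)
  have ht : ∀ t ∈ Ici t0, 0 < t := fun t h => h0.trans_le h
  have cA := D.hA.continuous
  have cB := D.hB.continuous
  have cC := D.hC.continuous
  have c1 : ContinuousOn (H1 ((n : ℝ) - 4) D) (Ici t0) :=
    ((continuousOn_const.mul (ode_ll D.hB fun t h => (hp t h).2.1)).add
      (continuousOn_const.mul (ode_ll D.hC fun t h => (hp t h).2.2))).div (by fun_prop)
      fun t h => (Real.sqrt_pos.2 (mul_pos (ht t h) (hp t h).1)).ne'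
  have c2 : ContinuousOn (PP ((n : ℝ) - 4) D) (Ici t0) :=
    (continuousOn_const.mul (D.hb.continuous.continuousOn.div cB.continuousOn
      fun t h => (hp t h).2.1.ne')).add (continuousOn_const.mul
        (D.hc.continuous.continuousOn.div cC.continuousOn fun t h => (hp t h).2.2.ne'))
  have c3 : ContinuousOn (w1 ((n : ℝ) - 4) D) (Ici t0) :=
    ((continuousOn_const.div (by fun_prop) fun t h => (Real.sqrt_pos.2 (hp t h).2.1).ne').add
      (ContinuousOn.div (by fun_prop) cC.continuousOn fun t h => (hp t h).2.2.ne')).div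
      (by fun_prop) fun t h => (Real.sqrt_pos.2 (ht t h)).ne'
  have c4 : Continuous (ar1 n D) := by
    unfold ar1
    fun_prop
  have p3 : ∀ t ∈ Ici t0, 0 < w1 ((n : ℝ) - 4) D t := fun t h => by
    obtain ⟨-, a1, a2⟩ := hp t h
    have a3 := ht t h
    unfold w1
    positivity
  have p4 : ∀ t ∈ Ici t0, 0 < ar1 n D t := fun t h => by
    obtain ⟨-, a1, a2⟩ := hp t h
    have a3 := ht t h
    unfold ar1
    positivity
  have c5 : ContinuousOn (mass n D) (Ici t0) :=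
    (continuousOn_const.mul (c4.continuousOn.rpow_const fun t h => .inl (p4 t h).ne')).mul
      (continuousOn_const.sub (((c1.pow 2).sub (c2.pow 2)).div (c3.pow 2)
        fun t h => (pow_pos (p3 t h) 2).ne'))
  obtain ⟨t1, h1, h2, h3⟩ := ode_last (m := fun t => min
      (H1 ((n : ℝ) - 4) D t + PP ((n : ℝ) - 4) D t) (H1 ((n : ℝ) - 4) D t - PP ((n : ℝ) - 4) D t))
    (continuous_min.comp_continuousOn ((c1.add c2).prodMk (c1.sub c2))) (min_le_of_left_le hi)
    ((hE n D hn ha).mono fun t h => lt_min h.1 h.2)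
  have h4 : H1 ((n : ℝ) - 4) D t1 ^ 2 - PP ((n : ℝ) - 4) D t1 ^ 2 = 0 := by
    rw [sq_sub_sq, mul_eq_zero]
    exact (min_choice _ _).imp (fun h => h.symm.trans h2) fun h => h.symm.trans h2
  have h5 : mass n D t1 = 1 / 2 * ar1 n D t1 ^ (((n : ℝ) - 2) / ((n : ℝ) - 1)) := by
    rw [mass, h4, zero_div, sub_zero, mul_one]
  refine ⟨t1, h1, h5 ▸ ge_of_tendsto (hL n D E hn ha hF) ((eventually_ge_atTop t1).mono
    (hC (mass n D) t1 (c5.mono (Ici_subset_Ici.2 h1)) ?_ fun t h h' => ?_))⟩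
  · rw [h5]
    exact mul_pos one_half_pos (Real.rpow_pos_of_pos (p4 t1 h1) _)
  · have h6 := h1.trans h.le
    have h7 := lt_min_iff.1 (h3 t h)
    exact hM n D t hn (ht t h6) (hp t h6).1 (hp t h6).2.1 (hp t h6).2.2 (hd t (h1.trans_lt h))
      h7.1 h7.2 h'

end Vale.Agent.P366
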