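import Vale.Agent.P366.Stm

/-! Integrals of constant and of odd functions over coordinate spheres. -/

namespace Vale.Agent.P366

open scoped Matrix ContDiff Topology Pointwise
open Filter Set MeasureTheory

namespace SphAux

variable {n : ℕ}

theorem neg_pres : MeasurePreserving
    (MeasurableEquiv.neg (Metric.sphere (0 : EuclideanSpace ℝ (Fin n)) 1))
    (volume : Measure (EuclideanSpace ℝ (Fin n))).toSphere
    (volume : Measure (EuclideanSpace ℝ (Fin n))).toSphere := by
  refine ⟨(MeasurableEquiv.neg _).measurable, ?_⟩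
  ext s hs
  rw [MeasurableEquiv.map_apply, Measure.toSphere_apply' _ hs,
    Measure.toSphere_apply' _ ((MeasurableEquiv.neg _).measurable hs)]
  have e : ((↑) '' ((MeasurableEquiv.neg (Metric.sphere (0 : EuclideanSpace ℝ (Fin n)) 1)) ⁻¹' s) :
      Set (EuclideanSpace ℝ (Fin n))) = -((↑) '' s) := by
    ext y
    constructor
    · rintro ⟨w, hw, rfl⟩
      exact ⟨-w, hw, rfl⟩
    · rintro ⟨w, hw, e⟩
      refine ⟨-w, ?_, ?_⟩
      · show - -w ∈ s
        rwa [neg_neg]
      · show -(w : EuclideanSpace ℝ (Fin n)) = y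
        rw [e, neg_neg]
  rw [e, Set.smul_neg, Measure.measure_neg]

theorem rad_eq {r : ℝ} (hr : 0 < r) (w : Metric.sphere (0 : EuclideanSpace ℝ (Fin n)) 1) :
    rad (r • w.1.ofLp) = r := by
  have h1 : ‖w.1‖ = 1 := mem_sphere_zero_iff_norm.1 w.2
  have h2 : w.1.ofLp ⬝ᵥ w.1.ofLp = 1 := by
    have := EuclideanSpace.real_norm_sq_eq w.1
    rw [h1, one_pow] at this
    exact (Finset.sum_congr rfl fun i _ => (sq _).symm).trans this.symm
  rw [rad, smul_dotProduct, dotProduct_smul, h2, smul_eq_mul, smul_eq_mul, mul_one,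
    Real.sqrt_mul_self hr.le]

end SphAux

theorem sph_pf : SphStmt := by
  intro n hn
  have ho : omega n = (volume : Measure (EuclideanSpace ℝ (Fin n))).toSphere.real univ := by
    simp only [omega, sph, one_pow, one_mul, integral_const, smul_eq_mul, mul_one]
  refine ⟨?_, fun r F c hr => ⟨fun h => ?_, fun i h => ?_⟩⟩
  · rw [ho, Measure.toSphere_real_apply_univ, finrank_euclideanSpace_fin]
    refine mul_pos (by exact_mod_cast hn) ?_
    exact ENNReal.toReal_pos (Metric.measure_ball_pos _ _ one_pos).ne' measure_ball_lt_top.ne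
  · simp only [sph, fun w => h _ (SphAux.rad_eq (n := n) hr w), integral_const, smul_eq_mul, ho,
      mul_assoc]
  · have e := (SphAux.neg_pres (n := n)).integral_comp' fun w => c * (r • w.1.ofLp) i
    have e2 : ∀ w : Metric.sphere (0 : EuclideanSpace ℝ (Fin n)) 1,
        c * (r • ((MeasurableEquiv.neg _) w).1.ofLp) i = -(c * (r • w.1.ofLp) i) := fun w => by
      show c * (r • (-w.1).ofLp) i = _
      simp
    simp only [e2, integral_neg] at e
    simp only [sph, fun w => h _ (SphAux.rad_eq (n := n) hr w)]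
    rw [self_eq_neg.1 e.symm, mul_zero]

end Vale.Agent.P366
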