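import Vale.Agent.P366.Defs

/-! Statements of the pieces of the proof. -/

namespace Vale.Agent.P366

open scoped Matrix ContDiff Topology
open Filter Set

/-- Six smooth functions of `t = |x|^2`: eigenvalues of `g` (capitals) and of `K` (small). -/
structure Dat where
  A : ℝ → ℝ
  B : ℝ → ℝ
  C : ℝ → ℝ
  a : ℝ → ℝ
  b : ℝ → ℝ
  c : ℝ → ℝ
  hA : ContDiff ℝ ∞ A
  hB : ContDiff ℝ ∞ B
  hC : ContDiff ℝ ∞ C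
  ha : ContDiff ℝ ∞ a
  hb : ContDiff ℝ ∞ b
  hc : ContDiff ℝ ∞ c

noncomputable def ll (N : ℝ → ℝ) (t : ℝ) : ℝ := 1 + t * deriv N t / N t

noncomputable def hh (q : ℝ) (D : Dat) (t : ℝ) : ℝ := 3 * ll D.B t + q * ll D.C t

noncomputable def R1 (q : ℝ) (D : Dat) (t : ℝ) : ℝ :=
  (6 / D.B t + q * (q + 8) / D.C t - 3 * q * D.B t / D.C t ^ 2) / t
    - 4 * deriv (hh q D) t / D.A t
    + 2 * hh q D t * (D.A t + t * deriv D.A t) / (t * D.A t ^ 2)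
    - hh q D t ^ 2 / (t * D.A t) - (3 * ll D.B t ^ 2 + q * ll D.C t ^ 2) / (t * D.A t)

noncomputable def PP (q : ℝ) (D : Dat) (t : ℝ) : ℝ := 3 * (D.b t / D.B t) + q * (D.c t / D.C t)

noncomputable def mu1 (q : ℝ) (D : Dat) (t : ℝ) : ℝ :=
  (R1 q D t + (D.a t / D.A t + PP q D t) ^ 2
    - ((D.a t / D.A t) ^ 2 + 3 * (D.b t / D.B t) ^ 2 + q * (D.c t / D.C t) ^ 2)) / 2

noncomputable def J1 (q : ℝ) (D : Dat) (t : ℝ) : ℝ :=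
  -2 * t * deriv (PP q D) t + hh q D t * (D.a t / D.A t)
    - (3 * ll D.B t * (D.b t / D.B t) + q * ll D.C t * (D.c t / D.C t))

noncomputable def H1 (q : ℝ) (D : Dat) (t : ℝ) : ℝ := hh q D t / √(t * D.A t)

noncomputable def F1 (q : ℝ) (D : Dat) (t : ℝ) : ℝ :=
  q * (D.A t - D.C t) + 3 * (D.A t - D.B t) - 2 * t * (3 * deriv D.B t + q * deriv D.C t)

noncomputable def ar1 (n : ℕ) (D : Dat) (t : ℝ) : ℝ :=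
  √t ^ (n - 1) * √(D.B t ^ 3 * D.C t ^ (n - 4))

noncomputable def w1 (q : ℝ) (D : Dat) (t : ℝ) : ℝ :=
  ((q + 6) / 2 / √(D.B t) + q / 2 * √(D.B t) / D.C t) / √t

noncomputable def mass (n : ℕ) (D : Dat) (t : ℝ) : ℝ :=
  1 / 2 * ar1 n D t ^ (((n : ℝ) - 2) / ((n : ℝ) - 1)) *
    (1 - (H1 ((n : ℝ) - 4) D t ^ 2 - PP ((n : ℝ) - 4) D t ^ 2) / w1 ((n : ℝ) - 4) D t ^ 2)

/-- Decay of the six functions. -/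
def Asym (n : ℕ) (D : Dat) : Prop :=
  Tendsto (fun t : ℝ => t ^ (((n : ℝ) - 2) / 4) * (D.A t - 1)) atTop (𝓝 0) ∧
  Tendsto (fun t : ℝ => t ^ (((n : ℝ) - 2) / 4) * (D.B t - 1)) atTop (𝓝 0) ∧
  Tendsto (fun t : ℝ => t ^ (((n : ℝ) - 2) / 4) * (D.C t - 1)) atTop (𝓝 0) ∧
  Tendsto (fun t : ℝ => t ^ (((n : ℝ) - 2) / 4) * (t * deriv D.B t)) atTop (𝓝 0) ∧
  Tendsto (fun t : ℝ => t ^ (((n : ℝ) - 2) / 4) * (t * deriv D.C t)) atTop (𝓝 0) ∧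
  Tendsto (fun t : ℝ => t ^ (((n : ℝ) - 2) / 4) * (√t * D.b t)) atTop (𝓝 0) ∧
  Tendsto (fun t : ℝ => t ^ (((n : ℝ) - 2) / 4) * (√t * D.c t)) atTop (𝓝 0)

/-! ### One-variable part -/

def MonoAlgStmt : Prop :=
  ∀ q X Y l1 l2 k0 k1 k2 Hs Ps H P w ws u us μ j : ℝ, 0 < q → 0 < X → 0 < Y →
    H = 3 * l1 + q * l2 → P = 3 * k1 + q * k2 →
    μ = ((6 * X ^ 2 + q * (q + 8) * (X * Y) - 3 * q * Y ^ 2) - 2 * Hs - H ^ 2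
      - (3 * l1 ^ 2 + q * l2 ^ 2) + (k0 + P) ^ 2 - (k0 ^ 2 + 3 * k1 ^ 2 + q * k2 ^ 2)) / 2 →
    j = -Ps + H * k0 - (3 * l1 * k1 + q * l2 * k2) →
    w = (q + 6) / 2 * X + q / 2 * Y →
    ws = -((q + 6) / 2 * l1 * X) + q / 2 * Y * (l1 - 2 * l2) →
    u = H ^ 2 - P ^ 2 → us = 2 * H * Hs - 2 * P * Ps →
    |j| ≤ μ → 0 < H + P → 0 < H - P → u ≤ w ^ 2 →
    0 ≤ (q + 2) / (q + 3) * H * (1 - u / w ^ 2) - us / w ^ 2 + 2 * u * ws / w ^ 3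

def MonoStmt : Prop :=
  ∀ (n : ℕ) (D : Dat) (t : ℝ), 4 < n → 0 < t → 0 < D.A t → 0 < D.B t → 0 < D.C t →
    |J1 ((n : ℝ) - 4) D t| / √(t * D.A t) ≤ mu1 ((n : ℝ) - 4) D t →
    0 < H1 ((n : ℝ) - 4) D t + PP ((n : ℝ) - 4) D t →
    0 < H1 ((n : ℝ) - 4) D t - PP ((n : ℝ) - 4) D t →
    0 ≤ mass n D t → DifferentiableAt ℝ (mass n D) t ∧ 0 ≤ deriv (mass n D) t

def ContStmt : Prop :=
  ∀ (f : ℝ → ℝ) (a : ℝ), ContinuousOn f (Ici a) → 0 < f a →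
    (∀ t, a < t → 0 ≤ f t → DifferentiableAt ℝ f t ∧ 0 ≤ deriv f t) → ∀ t, a ≤ t → f a ≤ f t

def LimStmt : Prop :=
  ∀ (n : ℕ) (D : Dat) (E : ℝ), 4 < n → Asym n D →
    Tendsto (fun t : ℝ => √t ^ (n - 2) * F1 ((n : ℝ) - 4) D t / (2 * ((n : ℝ) - 1))) atTop (𝓝 E) →
    Tendsto (mass n D) atTop (𝓝 E)

def EvPosStmt : Prop :=
  ∀ (n : ℕ) (D : Dat), 4 < n → Asym n D →
    ∀ᶠ t in atTop, 0 < H1 ((n : ℝ) - 4) D t + PP ((n : ℝ) - 4) D t ∧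
      0 < H1 ((n : ℝ) - 4) D t - PP ((n : ℝ) - 4) D t

def OdeStmt : Prop :=
  ∀ (n : ℕ) (D : Dat) (t0 E : ℝ), 4 < n → 0 < t0 →
    (∀ t, t0 ≤ t → 0 < D.A t ∧ 0 < D.B t ∧ 0 < D.C t) →
    (∀ t, t0 < t → |J1 ((n : ℝ) - 4) D t| / √(t * D.A t) ≤ mu1 ((n : ℝ) - 4) D t) →
    H1 ((n : ℝ) - 4) D t0 + PP ((n : ℝ) - 4) D t0 ≤ 0 → Asym n D →
    Tendsto (fun t : ℝ => √t ^ (n - 2) * F1 ((n : ℝ) - 4) D t / (2 * ((n : ℝ) - 1))) atTop (𝓝 E) →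
    ∃ t, t0 ≤ t ∧ 1 / 2 * ar1 n D t ^ (((n : ℝ) - 2) / ((n : ℝ) - 1)) ≤ E

/-! ### General geometry -/

def GenRStmt : Prop :=
  ∀ (n : ℕ) (g : Ten n) (x : Pt n), (∀ i j, ContDiffAt ℝ 2 (fun y => g y i j) x) →
    (∀ y, (g y)ᵀ = g y) → (g x).det ≠ 0 →
    scal g x = ∑ k, pd k (fun y => ∑ i, ∑ j, (g y)⁻¹ i j * chr g k i j y) x
      - ∑ i, ∑ j, (g x)⁻¹ i j * pd j (fun y => ∑ k, chr g k i k y) x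
      + ∑ l, (∑ k, chr g k l k x) * (∑ i, ∑ j, (g x)⁻¹ i j * chr g l i j x)
      + ∑ i, ∑ j, (g x)⁻¹ i j * ∑ k, ∑ l, chr g k j l x * chr g l i k x

def SphStmt : Prop :=
  ∀ n : ℕ, 0 < n → 0 < omega n ∧ ∀ (r : ℝ) (F : Pt n → ℝ) (c : ℝ), 0 < r →
    ((∀ x, rad x = r → F x = c) → sph r F = r ^ (n - 1) * omega n * c) ∧
    ∀ i, (∀ x, rad x = r → F x = c * x i) → sph r F = 0

/-! ### The ansatz -/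

variable {n : ℕ}

/-- The derivative of `hopf` in the direction `u`. -/
noncomputable def Dm (J : Fin 3 → Matrix (Fin n) (Fin n) ℝ) (x : Pt n) (A B C A' B' C' : ℝ)
    (u : Pt n) : Matrix (Fin n) (Fin n) ℝ :=
  (2 * (x ⬝ᵥ u)) • blk J x (A' - (A - C) / (x ⬝ᵥ x)) (B' - (B - C) / (x ⬝ᵥ x)) C'
    + ((A - C) / (x ⬝ᵥ x)) • (Matrix.vecMulVec u x + Matrix.vecMulVec x u)
    + ((B - C) / (x ⬝ᵥ x)) • ∑ a, (Matrix.vecMulVec (J a *ᵥ u) (J a *ᵥ x)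
        + Matrix.vecMulVec (J a *ᵥ x) (J a *ᵥ u))

/-- The lowered Christoffel symbols in the direction `u`. -/
noncomputable def Tm (J : Fin 3 → Matrix (Fin n) (Fin n) ℝ) (x : Pt n) (A B C A' B' C' : ℝ)
    (u : Pt n) : Matrix (Fin n) (Fin n) ℝ :=
  ((A - C) / (x ⬝ᵥ x)) • Matrix.vecMulVec x u
    + ((B - C) / (x ⬝ᵥ x)) • ∑ a, (Matrix.vecMulVec (J a *ᵥ u) (J a *ᵥ x)
        + ((J a *ᵥ x) ⬝ᵥ u) • J a)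
    + (x ⬝ᵥ u) • blk J x (A' - (A - C) / (x ⬝ᵥ x)) (B' - (B - C) / (x ⬝ᵥ x)) C'
    + Matrix.vecMulVec (blk J x (A' - (A - C) / (x ⬝ᵥ x)) (B' - (B - C) / (x ⬝ᵥ x)) C' *ᵥ u) x
    - Matrix.vecMulVec x (blk J x (A' - (A - C) / (x ⬝ᵥ x)) (B' - (B - C) / (x ⬝ᵥ x)) C' *ᵥ u)

/-- The Christoffel symbols in the direction `u`. -/
noncomputable def Gam (J : Fin 3 → Matrix (Fin n) (Fin n) ℝ) (x : Pt n) (A B C A' B' C' : ℝ)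
    (u : Pt n) : Matrix (Fin n) (Fin n) ℝ :=
  blk J x A⁻¹ B⁻¹ C⁻¹ * Tm J x A B C A' B' C' u

noncomputable def vv (q t A B C A' B' C' : ℝ) : ℝ :=
  (q * ((A - C) / t - C') / C + A' / A + 3 * ((A - B) / t - B') / B) / A

noncomputable def ww (q A B C A' B' C' : ℝ) : ℝ := A' / A + 3 * B' / B + q * C' / C

noncomputable def qq (q t A B C A' B' C' : ℝ) : ℝ :=
  q * 2 * t * ((A - C) / t - C') * C' / (A * C ^ 2)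
    + (t / A) * ((A' / A) ^ 2 + 3 * (B' / B) ^ 2 + q * (C' / C) ^ 2)
    + (3 / B) * t * (2 * ((A - B) / t - B') * B' / (A * B) - ((B - C) / t) ^ 2 * q / C ^ 2)

def JetStmt : Prop :=
  ∀ (n : ℕ) (J : Fin 3 → Matrix (Fin n) (Fin n) ℝ) (A B C : ℝ → ℝ) (x : Pt n), x ≠ 0 →
    DifferentiableAt ℝ A (x ⬝ᵥ x) → DifferentiableAt ℝ B (x ⬝ᵥ x) → DifferentiableAt ℝ C (x ⬝ᵥ x) →
    ∀ i j k, pd k (fun y => hopf J A B C y i j) x =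
      Dm J x (A (x ⬝ᵥ x)) (B (x ⬝ᵥ x)) (C (x ⬝ᵥ x)) (deriv A (x ⬝ᵥ x)) (deriv B (x ⬝ᵥ x))
        (deriv C (x ⬝ᵥ x)) (Pi.single k 1) i j

def SmoothStmt : Prop :=
  ∀ (n : ℕ) (J : Fin 3 → Matrix (Fin n) (Fin n) ℝ) (A B C : ℝ → ℝ) (x : Pt n), x ≠ 0 →
    ContDiff ℝ ∞ A → ContDiff ℝ ∞ B → ContDiff ℝ ∞ C →
    ∀ i j, ContDiffAt ℝ 2 (fun y => hopf J A B C y i j) x

def RadStmt : Prop :=
  ∀ (n : ℕ) (f : ℝ → ℝ) (x : Pt n), DifferentiableAt ℝ f (x ⬝ᵥ x) → ∀ i j,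
    pd j (fun y => f (y ⬝ᵥ y) * y i) x =
      2 * deriv f (x ⬝ᵥ x) * x i * x j + (if i = j then f (x ⬝ᵥ x) else 0)

def DetStmt : Prop :=
  ∀ (n : ℕ) (J : Fin 3 → Matrix (Fin n) (Fin n) ℝ) (x : Pt n) (A B C : ℝ), 4 < n → IsQuat J →
    x ≠ 0 → C ≠ 0 → (blk J x A B C).det = A * B ^ 3 * C ^ (n - 4)

def ChrStmt : Prop :=
  ∀ (n : ℕ) (J : Fin 3 → Matrix (Fin n) (Fin n) ℝ) (D : Dat) (x : Pt n), IsQuat J → x ≠ 0 →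
    D.A (x ⬝ᵥ x) ≠ 0 → D.B (x ⬝ᵥ x) ≠ 0 → D.C (x ⬝ᵥ x) ≠ 0 → ∀ k i j,
    chr (hopf J D.A D.B D.C) k i j x =
      Gam J x (D.A (x ⬝ᵥ x)) (D.B (x ⬝ᵥ x)) (D.C (x ⬝ᵥ x)) (deriv D.A (x ⬝ᵥ x))
        (deriv D.B (x ⬝ᵥ x)) (deriv D.C (x ⬝ᵥ x)) (Pi.single i 1) k j

def VStmt : Prop :=
  ∀ (n : ℕ) (J : Fin 3 → Matrix (Fin n) (Fin n) ℝ) (x : Pt n) (A B C A' B' C' : ℝ), IsQuat J →
    x ≠ 0 → A ≠ 0 → B ≠ 0 → C ≠ 0 → ∀ k,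
    ∑ i, ∑ j, blk J x A⁻¹ B⁻¹ C⁻¹ i j * Gam J x A B C A' B' C' (Pi.single i 1) k j =
      vv ((n : ℝ) - 4) (x ⬝ᵥ x) A B C A' B' C' * x k

def WStmt : Prop :=
  ∀ (n : ℕ) (J : Fin 3 → Matrix (Fin n) (Fin n) ℝ) (x : Pt n) (A B C A' B' C' : ℝ), IsQuat J →
    x ≠ 0 → A ≠ 0 → B ≠ 0 → C ≠ 0 → ∀ i,
    ∑ k, Gam J x A B C A' B' C' (Pi.single i 1) k k = ww ((n : ℝ) - 4) A B C A' B' C' * x i

def QStmt : Prop :=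
  ∀ (n : ℕ) (J : Fin 3 → Matrix (Fin n) (Fin n) ℝ) (x : Pt n) (A B C A' B' C' : ℝ), IsQuat J →
    x ≠ 0 → A ≠ 0 → B ≠ 0 → C ≠ 0 →
    ∑ i, ∑ j, blk J x A⁻¹ B⁻¹ C⁻¹ i j * ∑ k, ∑ l,
      Gam J x A B C A' B' C' (Pi.single j 1) k l * Gam J x A B C A' B' C' (Pi.single i 1) l k =
      qq ((n : ℝ) - 4) (x ⬝ᵥ x) A B C A' B' C'

/-- `Γ^k_{ij} x^j` (equivalently `Γ^k_{ji} x^j`). -/
def GxStmt : Prop :=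
  ∀ (n : ℕ) (J : Fin 3 → Matrix (Fin n) (Fin n) ℝ) (x : Pt n) (A B C A' B' C' : ℝ), IsQuat J →
    x ≠ 0 → A ≠ 0 → B ≠ 0 → C ≠ 0 → ∀ k i,
    ∑ j, Gam J x A B C A' B' C' (Pi.single i 1) k j * x j =
      (x ⬝ᵥ x) * blk J x (A' / A) (B' / B) (C' / C) k i

/-- Contracted derivative of the ansatz. -/
def DivStmt : Prop :=
  ∀ (n : ℕ) (J : Fin 3 → Matrix (Fin n) (Fin n) ℝ) (x : Pt n) (α β γ A B C A' B' C' : ℝ),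
    IsQuat J → x ≠ 0 →
    (∑ i, ∑ k, ∑ j, blk J x α β γ i k * Dm J x A B C A' B' C' (Pi.single i 1) k j * x j =
      ((n : ℝ) - 4) * (A - C) * γ + 3 * (A - B) * β + 2 * (x ⬝ᵥ x) * A' * α) ∧
    ∀ i j, ∑ k, x k * Dm J x A B C A' B' C' (Pi.single k 1) i j =
      2 * (x ⬝ᵥ x) * blk J x A' B' C' i j

def ScalStmt : Prop :=
  ∀ (n : ℕ) (J : Fin 3 → Matrix (Fin n) (Fin n) ℝ) (D : Dat) (x : Pt n), IsQuat J → x ≠ 0 →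
    D.A (x ⬝ᵥ x) ≠ 0 → D.B (x ⬝ᵥ x) ≠ 0 → D.C (x ⬝ᵥ x) ≠ 0 →
    scal (hopf J D.A D.B D.C) x = R1 ((n : ℝ) - 4) D (x ⬝ᵥ x)

def KStmt : Prop :=
  ∀ (n : ℕ) (J : Fin 3 → Matrix (Fin n) (Fin n) ℝ) (D : Dat) (x : Pt n), IsQuat J → x ≠ 0 →
    0 < D.A (x ⬝ᵥ x) → D.B (x ⬝ᵥ x) ≠ 0 → D.C (x ⬝ᵥ x) ≠ 0 →
    trg (hopf J D.A D.B D.C) (hopf J D.a D.b D.c) x =
      D.a (x ⬝ᵥ x) / D.A (x ⬝ᵥ x) + PP ((n : ℝ) - 4) D (x ⬝ᵥ x) ∧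
    nsq (hopf J D.A D.B D.C) (hopf J D.a D.b D.c) x =
      (D.a (x ⬝ᵥ x) / D.A (x ⬝ᵥ x)) ^ 2 + 3 * (D.b (x ⬝ᵥ x) / D.B (x ⬝ᵥ x)) ^ 2
        + ((n : ℝ) - 4) * (D.c (x ⬝ᵥ x) / D.C (x ⬝ᵥ x)) ^ 2 ∧
    trS (hopf J D.A D.B D.C) (hopf J D.a D.b D.c) x = PP ((n : ℝ) - 4) D (x ⬝ᵥ x) ∧
    ∀ i, ∑ j, mom (hopf J D.A D.B D.C) (hopf J D.a D.b D.c) x i j * x j =
      -(D.A (x ⬝ᵥ x) * PP ((n : ℝ) - 4) D (x ⬝ᵥ x)) * x i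

def HStmt : Prop :=
  ∀ (n : ℕ) (J : Fin 3 → Matrix (Fin n) (Fin n) ℝ) (D : Dat) (x : Pt n), IsQuat J → x ≠ 0 →
    0 < D.A (x ⬝ᵥ x) → D.B (x ⬝ᵥ x) ≠ 0 → D.C (x ⬝ᵥ x) ≠ 0 →
    meanCurv (hopf J D.A D.B D.C) x = H1 ((n : ℝ) - 4) D (x ⬝ᵥ x)

def CurStmt : Prop :=
  ∀ (n : ℕ) (J : Fin 3 → Matrix (Fin n) (Fin n) ℝ) (D : Dat) (x : Pt n), IsQuat J → x ≠ 0 →
    0 < D.A (x ⬝ᵥ x) → D.B (x ⬝ᵥ x) ≠ 0 → D.C (x ⬝ᵥ x) ≠ 0 →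
    ∑ j, cur (hopf J D.A D.B D.C) (hopf J D.a D.b D.c) j x * x j = J1 ((n : ℝ) - 4) D (x ⬝ᵥ x)

def CsStmt : Prop :=
  ∀ (n : ℕ) (J : Fin 3 → Matrix (Fin n) (Fin n) ℝ) (x v : Pt n) (A B C : ℝ), IsQuat J → x ≠ 0 →
    0 < A → 0 < B → 0 < C →
    |∑ j, v j * x j| / √((x ⬝ᵥ x) * A) ≤ √(∑ i, ∑ j, (blk J x A B C)⁻¹ i j * v i * v j)

def FluxStmt : Prop :=
  ∀ (n : ℕ) (J : Fin 3 → Matrix (Fin n) (Fin n) ℝ) (D : Dat) (r : ℝ), 4 < n → IsQuat J → 0 < r →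
    0 < D.A (r ^ 2) → 0 < D.B (r ^ 2) → 0 < D.C (r ^ 2) →
    energyFlux (hopf J D.A D.B D.C) r =
      r ^ (n - 2) * F1 ((n : ℝ) - 4) D (r ^ 2) / (2 * ((n : ℝ) - 1)) ∧
    (∀ i, momFlux (hopf J D.A D.B D.C) (hopf J D.a D.b D.c) i r = 0) ∧
    area (hopf J D.A D.B D.C) r / omega n = ar1 n D (r ^ 2)

def DecayStmt : Prop :=
  ∀ (n : ℕ) (J : Fin 3 → Matrix (Fin n) (Fin n) ℝ) (D : Dat) (R τ : ℝ), 4 < n → IsQuat J → 0 < R →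
    ((n : ℝ) - 2) / 2 < τ → Decay (hopf J D.A D.B D.C) (hopf J D.a D.b D.c) R τ → Asym n D

end Vale.Agent.P366
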